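import Mathlib

/-!
Definitions for the three-marginal Coulomb transport problem on three-dimensional space.
-/

noncomputable section

open MeasureTheory
open scoped ENNReal

namespace Vale.Agent.P121

/-- Euclidean three-space. -/
abbrev E3 : Type := EuclideanSpace ℝ (Fin 3)

/-- The Coulomb cost, equal to infinity when two of the three points coincide. -/
def coulombCost (p : E3 × E3 × E3) : ℝ≥0∞ :=
  (edist p.1 p.2.1)⁻¹ + (edist p.1 p.2.2)⁻¹ + (edist p.2.1 p.2.2)⁻¹

/-- A measure on triples all three of whose marginals equal `μ`. -/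
def IsCoupling (μ : Measure E3) (π : Measure (E3 × E3 × E3)) : Prop :=
  π.map (fun p => p.1) = μ ∧ π.map (fun p => p.2.1) = μ ∧ π.map (fun p => p.2.2) = μ

/-- The Kantorovich value of the three-marginal Coulomb problem. -/
def kantorovichValue (μ : Measure E3) : ℝ≥0∞ :=
  ⨅ π : {π : Measure (E3 × E3 × E3) // IsCoupling μ π}, ∫⁻ p, coulombCost p ∂π.1

end Vale.Agent.P121
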