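import Vale.Agent.P121.Sheet

/-!
The dual potential and the description of its contact set.
-/

noncomputable section

open MeasureTheory Filter Topology Metric Set
open scoped RealInnerProductSpace NNReal ENNReal

namespace Vale.Agent.P121

/-- Exchange of the second and third coordinate. -/
def swapYZ : E3 ≃ₗᵢ[ℝ] E3 := LinearIsometryEquiv.piLpCongrLeft 2 ℝ ℝ (Equiv.swap 1 2)

lemma swapYZ_apply (x : E3) (i : Fin 3) : swapYZ x i = x (Equiv.swap 1 2 i) := by
  simp [swapYZ, LinearIsometryEquiv.piLpCongrLeft_apply, Equiv.piCongrLeft'_apply]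

lemma swapYZ_pt (x y z : ℝ) : swapYZ (pt x y z) = pt x z y := by
  ext i; rw [swapYZ_apply]; fin_cases i <;> rfl

@[simp] lemma swapYZ_swapYZ (x : E3) : swapYZ (swapYZ x) = x := by
  ext i; simp [swapYZ_apply]

lemma swapYZ_linA : swapYZ linA = linA := by rw [linA, swapYZ_pt]

lemma potA_swapYZ (a : E3) : potA (swapYZ a) = potA a := by
  have h : ⟪linA, swapYZ a⟫ = ⟪linA, a⟫ := by
    conv_lhs => rw [← swapYZ_linA]
    rw [LinearIsometryEquiv.inner_map_map]
  simp [potA, h]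

lemma dist_swapYZ (x y : E3) : dist (swapYZ x) y = dist x (swapYZ y) := by
  conv_lhs => rw [← swapYZ_swapYZ y]
  rw [LinearIsometryEquiv.dist_map]

def ptB' : E3 := pt 3 0 4
def ptC' : E3 := pt 3 0 (-4)

lemma swapYZ_ptB : swapYZ ptB = ptB' := swapYZ_pt _ _ _
lemma swapYZ_ptC : swapYZ ptC = ptC' := swapYZ_pt _ _ _

lemma norm_ptB' : ‖ptB'‖ = 5 := by rw [← swapYZ_ptB, LinearIsometryEquiv.norm_map, norm_ptB]
lemma norm_ptC' : ‖ptC'‖ = 5 := by rw [← swapYZ_ptC, LinearIsometryEquiv.norm_map, norm_ptC]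

lemma dist_ptB'_ptC' : dist ptC' ptB' = 8 := by
  rw [← swapYZ_ptB, ← swapYZ_ptC, LinearIsometryEquiv.dist_map, dist_ptB_ptC]

lemma cross_dist {p q : E3} (hp : p = ptB ∨ p = ptC) (hq : q = ptB' ∨ q = ptC') :
    5 ≤ dist p q ∧ dist p q ≤ 566/100 := by
  have h : dist p q ^ 2 = 32 := by
    rw [dist_eq_norm, norm_sq_three]
    rcases hp with rfl | rfl <;> rcases hq with rfl | rfl <;>
      simp [ptB, ptC, ptB', ptC'] <;> norm_num
  constructor <;> nlinarith [dist_nonneg (x := p) (y := q)]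

/-- The total Coulomb energy of three points. -/
def energy (x y z : E3) : ℝ := ‖x - y‖⁻¹ + ‖x - z‖⁻¹ + ‖y - z‖⁻¹

lemma energy_eq_costR (x y z : E3) : energy x y z = costR x y z := by
  rw [energy, costR, norm_sub_rev y z]

lemma energy_swap12 (x y z : E3) : energy y x z = energy x y z := by
  rw [energy, energy, norm_sub_rev y x]; ring

lemma energy_swap23 (x y z : E3) : energy x z y = energy x y z := by
  rw [energy, energy, norm_sub_rev z y]; ring

lemma energy_swapYZ (x y z : E3) :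
    energy (swapYZ x) (swapYZ y) (swapYZ z) = energy x y z := by
  simp only [energy, ← map_sub, LinearIsometryEquiv.norm_map]

lemma coulombCost_eq {x y z : E3} (h1 : x ≠ y) (h2 : x ≠ z) (h3 : y ≠ z) :
    coulombCost (x, y, z) = ENNReal.ofReal (energy x y z) := by
  have p1 : 0 < dist x y := dist_pos.mpr h1
  have p2 : 0 < dist x z := dist_pos.mpr h2
  have p3 : 0 < dist y z := dist_pos.mpr h3
  simp only [coulombCost, edist_dist, ← ENNReal.ofReal_inv_of_pos p1,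
    ← ENNReal.ofReal_inv_of_pos p2, ← ENNReal.ofReal_inv_of_pos p3]
  rw [← ENNReal.ofReal_add (inv_nonneg.mpr p1.le) (inv_nonneg.mpr p2.le),
    ← ENNReal.ofReal_add (by positivity) (inv_nonneg.mpr p3.le)]
  simp [energy, dist_eq_norm]

lemma energy_big_12 {x y z : E3} (h : dist x y < 1/50) (h1 : x ≠ y) : 50 < energy x y z := by
  have p1 : 0 < dist x y := dist_pos.mpr h1
  have : 50 < (dist x y)⁻¹ := by
    rw [lt_inv_comm₀ (by norm_num) p1]; linarith
  rw [dist_eq_norm] at this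
  have h2 : 0 ≤ ‖x - z‖⁻¹ := by positivity
  have h3 : 0 ≤ ‖y - z‖⁻¹ := by positivity
  unfold energy; linarith

lemma norm_linA_le : ‖linA‖ ≤ 6/125 := by
  have := norm_sq_three linA
  simp [linA] at this ⊢
  nlinarith [norm_nonneg (pt (6/125) 0 0)]

lemma norm_linC_le : ‖linC‖ ≤ 3/50 := by
  have := norm_sq_three linC
  simp [linC] at this ⊢
  nlinarith [norm_nonneg (pt (-3/125) (4/125 + 1/64) 0)]

lemma potA_bounds {a : E3} (h : dist a 0 < 1/100) : |potA a| ≤ 1/1000 := by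
  rw [dist_zero_right] at h
  have h1 := (abs_real_inner_le_norm linA a).trans
    (mul_le_mul norm_linA_le h.le (norm_nonneg _) (by norm_num))
  rw [abs_le] at h1
  have h2 : ‖a‖ ^ 2 ≤ (1/100) ^ 2 := pow_le_pow_left₀ (norm_nonneg _) h.le 2
  simp only [potA, abs_le]
  constructor <;> linarith [h1.1, h1.2, sq_nonneg ‖a‖]

lemma potC_bounds {d : E3} (h : dist d ptC < 1/100) : |potC d - 21/80| ≤ 1/1000 := by
  rw [dist_eq_norm] at h
  have h1 := (abs_real_inner_le_norm linC (d - ptC)).trans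
    (mul_le_mul norm_linC_le h.le (norm_nonneg _) (by norm_num))
  rw [abs_le] at h1
  have h2 : ‖d - ptC‖ ^ 2 ≤ (1/100) ^ 2 := pow_le_pow_left₀ (norm_nonneg _) h.le 2
  simp only [potC, abs_le]
  constructor <;> linarith [h1.1, h1.2, sq_nonneg ‖d - ptC‖]

namespace Sheet

variable (s : Sheet)

def dom : Set E3 := ball 0 s.rad

lemma mem_dom {a : E3} : a ∈ s.dom ↔ dist a 0 < s.rad := mem_ball

lemma dom_near {a : E3} (h : a ∈ s.dom) : dist a 0 < 1/100 :=
  lt_of_lt_of_le (s.mem_dom.mp h) s.rad_le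

/-- Points of the second site on the sheet. -/
def setB : Set E3 := {b | dist b ptB < 1/100 ∧ s.invB b ∈ s.dom ∧ s.fwdB (s.invB b) = b}

/-- Points of the third site on the sheet. -/
def setC : Set E3 := {d | dist d ptC < 1/100 ∧ s.invC d ∈ s.dom ∧ s.fwdC (s.invC d) = d}

/-- The tilted cost along the sheet. -/
def level (a : E3) : ℝ := tilted a (s.fwdB a) (s.fwdC a)

/-- The carrier of the marginal. -/
def carrier : Set E3 :=
  s.dom ∪ s.setB ∪ s.setC ∪ swapYZ ⁻¹' s.setB ∪ swapYZ ⁻¹' s.setC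

open Classical in
/-- The dual potential. -/
def pot (x : E3) : ℝ :=
  if dist x 0 < 1/100 then potA x + 2
  else if dist x ptB < 1/100 then s.level (s.invB x) - 1
  else if dist x ptC < 1/100 then potC x - 1
  else if dist (swapYZ x) ptB < 1/100 then s.level (s.invB (swapYZ x)) - 1
  else potC (swapYZ x) - 1

/-- The two-sheet contact relation, as unordered triples. -/
def Contact (x y z : E3) : Prop :=
  ∃ a ∈ s.dom, ({x, y, z} : Multiset E3) = {a, s.fwdB a, s.fwdC a} ∨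
    ({x, y, z} : Multiset E3) =
      {a, swapYZ (s.fwdB (swapYZ a)), swapYZ (s.fwdC (swapYZ a))}

lemma swap_mem_dom {a : E3} (h : a ∈ s.dom) : swapYZ a ∈ s.dom := by
  rw [mem_dom] at h ⊢
  rwa [dist_swapYZ, map_zero]

lemma level_bounds {a : E3} (h : a ∈ s.dom) : 1/4 ≤ s.level a ∧ s.level a ≤ 27/100 := by
  have hb := s.near_fwdB a (s.mem_dom.mp h)
  have hc := s.near_fwdC a (s.mem_dom.mp h)
  obtain ⟨⟨l1, u1⟩, ⟨l2, u2⟩, l3, u3⟩ := near_triple (s.dom_near h).le hb.le hc.le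
  have hA := abs_le.mp (potA_bounds (s.dom_near h))
  have hC := abs_le.mp (potC_bounds hc)
  have i1 := inv_anti₀ (by linarith) u1
  have i2 := inv_anti₀ (by linarith) u2
  have i3 := inv_anti₀ (by linarith) u3
  have j1 := inv_anti₀ (by norm_num) l1
  have j2 := inv_anti₀ (by norm_num) l2
  have j3 := inv_anti₀ (by norm_num) l3
  norm_num at i1 i2 i3 j1 j2 j3
  simp only [level, tilted, costR]
  constructor <;> linarith [hA.1, hA.2, hC.1, hC.2]

lemma sep {x p q : E3} (h : 1 ≤ dist p q) (hp : dist x p < 1/100) : ¬ dist x q < 1/100 := by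
  intro hq
  have := dist_triangle_left p q x
  linarith

lemma pot_dom {x : E3} (h : x ∈ s.dom) : s.pot x = potA x + 2 := by
  rw [pot, if_pos (s.dom_near h)]

lemma pot_B {x : E3} (h : dist x ptB < 1/100) : s.pot x = s.level (s.invB x) - 1 := by
  have h0 : ¬ dist x 0 < 1/100 := sep (by rw [dist_zero_right, norm_ptB]; norm_num) h
  rw [pot, if_neg h0, if_pos h]

lemma pot_C {x : E3} (h : dist x ptC < 1/100) : s.pot x = potC x - 1 := by
  have h0 : ¬ dist x 0 < 1/100 := sep (by rw [dist_zero_right, norm_ptC]; norm_num) h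
  have h1 : ¬ dist x ptB < 1/100 := sep (by rw [dist_ptB_ptC]; norm_num) h
  rw [pot, if_neg h0, if_neg h1, if_pos h]

lemma pot_B' {x : E3} (h : dist (swapYZ x) ptB < 1/100) :
    s.pot x = s.level (s.invB (swapYZ x)) - 1 := by
  have h' : dist x ptB' < 1/100 := by rwa [dist_swapYZ, swapYZ_ptB] at h
  have h0 : ¬ dist x 0 < 1/100 := sep (by rw [dist_zero_right, norm_ptB']; norm_num) h'
  have h1 : ¬ dist x ptB < 1/100 :=
    sep (by rw [dist_comm]; linarith [(cross_dist (Or.inl rfl) (Or.inl rfl)).1]) h'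
  have h2 : ¬ dist x ptC < 1/100 :=
    sep (by rw [dist_comm]; linarith [(cross_dist (Or.inr rfl) (Or.inl rfl)).1]) h'
  rw [pot, if_neg h0, if_neg h1, if_neg h2, if_pos h]

lemma pot_C' {x : E3} (h : dist (swapYZ x) ptC < 1/100) :
    s.pot x = potC (swapYZ x) - 1 := by
  have h' : dist x ptC' < 1/100 := by rwa [dist_swapYZ, swapYZ_ptC] at h
  have h0 : ¬ dist x 0 < 1/100 := sep (by rw [dist_zero_right, norm_ptC']; norm_num) h'
  have h1 : ¬ dist x ptB < 1/100 :=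
    sep (by rw [dist_comm]; linarith [(cross_dist (Or.inl rfl) (Or.inr rfl)).1]) h'
  have h2 : ¬ dist x ptC < 1/100 :=
    sep (by rw [dist_comm]; linarith [(cross_dist (Or.inr rfl) (Or.inr rfl)).1]) h'
  have h3 : ¬ dist (swapYZ x) ptB < 1/100 := sep (by rw [dist_ptB_ptC]; norm_num) h
  rw [pot, if_neg h0, if_neg h1, if_neg h2, if_neg h3]

/-- A point of the carrier away from the first site, with its site. -/
def Outer (x p : E3) : Prop :=
  dist x p < 1/100 ∧ ‖p‖ = 5 ∧ s.pot x ≤ -(73/100) ∧ -1 ≤ s.pot x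

lemma outer_B {x : E3} (h : x ∈ s.setB) : s.Outer x ptB := by
  have := s.level_bounds h.2.1
  refine ⟨h.1, norm_ptB, ?_, ?_⟩ <;> rw [s.pot_B h.1] <;> linarith [this.1, this.2]

lemma outer_C {x : E3} (h : x ∈ s.setC) : s.Outer x ptC := by
  have := abs_le.mp (potC_bounds h.1)
  refine ⟨h.1, norm_ptC, ?_, ?_⟩ <;> rw [s.pot_C h.1] <;> linarith [this.1, this.2]

lemma outer_B' {x : E3} (h : x ∈ swapYZ ⁻¹' s.setB) : s.Outer x ptB' := by
  have h' : dist x ptB' < 1/100 := by rw [← swapYZ_ptB, ← dist_swapYZ]; exact h.1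
  have := s.level_bounds h.2.1
  refine ⟨h', norm_ptB', ?_, ?_⟩ <;> rw [s.pot_B' h.1] <;> linarith [this.1, this.2]

lemma outer_C' {x : E3} (h : x ∈ swapYZ ⁻¹' s.setC) : s.Outer x ptC' := by
  have h' : dist x ptC' < 1/100 := by rw [← swapYZ_ptC, ← dist_swapYZ]; exact h.1
  have := abs_le.mp (potC_bounds h.1)
  refine ⟨h', norm_ptC', ?_, ?_⟩ <;> rw [s.pot_C' h.1] <;> linarith [this.1, this.2]

lemma carrier_cases {x : E3} (h : x ∈ s.carrier) :
    x ∈ s.dom ∨ ∃ p, s.Outer x p ∧ ((x ∈ s.setB ∧ p = ptB) ∨ (x ∈ s.setC ∧ p = ptC) ∨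
      (x ∈ swapYZ ⁻¹' s.setB ∧ p = ptB') ∨ (x ∈ swapYZ ⁻¹' s.setC ∧ p = ptC')) := by
  rcases h with (((h | h) | h) | h) | h
  · exact Or.inl h
  · exact Or.inr ⟨_, s.outer_B h, Or.inl ⟨h, rfl⟩⟩
  · exact Or.inr ⟨_, s.outer_C h, Or.inr (Or.inl ⟨h, rfl⟩)⟩
  · exact Or.inr ⟨_, s.outer_B' h, Or.inr (Or.inr (Or.inl ⟨h, rfl⟩))⟩
  · exact Or.inr ⟨_, s.outer_C' h, Or.inr (Or.inr (Or.inr ⟨h, rfl⟩))⟩

lemma pot_range {x : E3} (h : x ∈ s.carrier) : -1 ≤ s.pot x ∧ s.pot x ≤ 3 := by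
  rcases s.carrier_cases h with h | ⟨p, hp, -⟩
  · have := abs_le.mp (potA_bounds (s.dom_near h))
    rw [s.pot_dom h]; constructor <;> linarith [this.1, this.2]
  · exact ⟨hp.2.2.2, by linarith [hp.2.2.1]⟩

/-- The dual inequality together with the description of equality. -/
def Good (x y z : E3) : Prop :=
  s.pot x + s.pot y + s.pot z ≤ energy x y z ∧
    (s.pot x + s.pot y + s.pot z = energy x y z → s.Contact x y z)

lemma good_swap12 {x y z : E3} (h : s.Good x y z) : s.Good y x z := by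
  obtain ⟨h1, h2⟩ := h
  refine ⟨by rw [energy_swap12]; linarith, fun e => ?_⟩
  obtain ⟨a, ha, hm⟩ := h2 (by rw [energy_swap12] at e; linarith)
  refine ⟨a, ha, ?_⟩
  have : ({y, x, z} : Multiset E3) = {x, y, z} := Multiset.cons_swap _ _ _
  rwa [this]

lemma good_swap23 {x y z : E3} (h : s.Good x y z) : s.Good x z y := by
  obtain ⟨h1, h2⟩ := h
  refine ⟨by rw [energy_swap23]; linarith, fun e => ?_⟩
  obtain ⟨a, ha, hm⟩ := h2 (by rw [energy_swap23] at e; linarith)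
  refine ⟨a, ha, ?_⟩
  have : ({x, z, y} : Multiset E3) = {x, y, z} :=
    congrArg (x ::ₘ ·) (Multiset.cons_swap _ _ _)
  rwa [this]

lemma good_of_lt {x y z : E3} (h : s.pot x + s.pot y + s.pot z < energy x y z) :
    s.Good x y z := ⟨h.le, fun e => absurd e h.ne⟩

lemma good_cross {x y z p q : E3} (hx : x ∈ s.dom) (hy : s.Outer y p) (hz : s.Outer z q)
    (hpq : dist p q ≤ 566/100) (h1 : x ≠ y) (h2 : x ≠ z) (h3 : y ≠ z) : s.Good x y z := by
  apply good_of_lt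
  have hA := abs_le.mp (potA_bounds (s.dom_near hx))
  have u1 := (dist_bounds (s.dom_near hx).le hy.1.le).2
  have u2 := (dist_bounds (s.dom_near hx).le hz.1.le).2
  have u3 := (dist_bounds hy.1.le hz.1.le).2
  rw [dist_zero_left, hy.2.1] at u1
  rw [dist_zero_left, hz.2.1] at u2
  rw [dist_eq_norm] at u1 u2 u3
  have i1 := inv_anti₀ (norm_pos_iff.mpr (sub_ne_zero.mpr h1)) u1
  have i2 := inv_anti₀ (norm_pos_iff.mpr (sub_ne_zero.mpr h2)) u2
  have i3 := inv_anti₀ (norm_pos_iff.mpr (sub_ne_zero.mpr h3))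
    (u3.trans (by linarith : _ ≤ (568/100 : ℝ)))
  norm_num at i1 i2 i3
  rw [s.pot_dom hx, energy]
  linarith [hA.2, hy.2.2.1, hz.2.2.1]

/-- Inequality and equality on the sheet. -/
lemma sheet_ineq {x y z : E3} (hy : y ∈ s.setB) (h1 : x ≠ y) (h2 : x ≠ z) (h3 : y ≠ z) :
    s.level (s.invB y) + potA x + potC z ≤ energy x y z ∧
      (s.level (s.invB y) + potA x + potC z = energy x y z →
        x = s.invB y ∧ z = s.fwdC (s.invB y)) := by
  obtain ⟨-, ha, hb⟩ := hy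
  have ha' := s.mem_dom.mp ha
  have := crit_min (a' := x) (d' := z) (s.dom_near ha).le (s.near_fwdB _ ha').le
    (s.near_fwdC _ ha').le (s.crit_fwd _ ha') (by rwa [hb]) h2 (by rw [hb]; exact h3.symm)
  rw [energy_eq_costR]
  simp only [level, tilted, hb] at this ⊢
  have n1 := sq_nonneg ‖x - s.invB y‖
  have n2 := sq_nonneg ‖z - s.fwdC (s.invB y)‖
  refine ⟨by linarith, fun e => ?_⟩
  have e1 : ‖x - s.invB y‖ ^ 2 = 0 := by linarith
  have e2 : ‖z - s.fwdC (s.invB y)‖ ^ 2 = 0 := by linarith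
  exact ⟨sub_eq_zero.mp (norm_eq_zero.mp (pow_eq_zero_iff (by norm_num) |>.mp e1)),
    sub_eq_zero.mp (norm_eq_zero.mp (pow_eq_zero_iff (by norm_num) |>.mp e2))⟩

lemma good_sheet {x y z : E3} (hx : x ∈ s.dom) (hy : y ∈ s.setB) (hz : z ∈ s.setC)
    (h1 : x ≠ y) (h2 : x ≠ z) (h3 : y ≠ z) : s.Good x y z := by
  obtain ⟨i, e⟩ := s.sheet_ineq hy h1 h2 h3
  rw [Good, s.pot_dom hx, s.pot_B hy.1, s.pot_C hz.1]
  refine ⟨by linarith, fun h => ?_⟩
  obtain ⟨rfl, rfl⟩ := e (by linarith)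
  exact ⟨_, hx, Or.inl (by rw [hy.2.2])⟩

lemma good_sheet' {x y z : E3} (hx : x ∈ s.dom) (hy : y ∈ swapYZ ⁻¹' s.setB)
    (hz : z ∈ swapYZ ⁻¹' s.setC) (h1 : x ≠ y) (h2 : x ≠ z) (h3 : y ≠ z) : s.Good x y z := by
  have inj := swapYZ.injective
  obtain ⟨i, e⟩ := s.sheet_ineq (x := swapYZ x) (z := swapYZ z) hy (inj.ne h1) (inj.ne h2)
    (inj.ne h3)
  rw [potA_swapYZ, energy_swapYZ] at i e
  rw [Good, s.pot_dom hx, s.pot_B' hy.1, s.pot_C' hz.1]
  refine ⟨by linarith, fun h => ?_⟩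
  obtain ⟨ex, ez⟩ := e (by linarith)
  refine ⟨x, hx, Or.inr ?_⟩
  rw [ex, hy.2.2, ← ez, swapYZ_swapYZ, swapYZ_swapYZ]

lemma good_big {x y z p : E3} (hx : x ∈ s.carrier) (hy : y ∈ s.carrier) (hz : z ∈ s.carrier)
    (hxp : dist x p < 1/100) (hyp : dist y p < 1/100) (h1 : x ≠ y) : s.Good x y z := by
  apply good_of_lt
  have : dist x y < 1/50 := by have := dist_triangle_right x y p; linarith
  have := energy_big_12 (z := z) this h1
  linarith [(s.pot_range hx).2, (s.pot_range hy).2, (s.pot_range hz).2]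

lemma good_outer {x y z : E3} (hx : x ∈ s.dom) (hy : y ∈ s.carrier) (hz : z ∈ s.carrier)
    {p q : E3} (py : s.Outer y p) (qz : s.Outer z q)
    (cy : (y ∈ s.setB ∧ p = ptB) ∨ (y ∈ s.setC ∧ p = ptC) ∨
      (y ∈ swapYZ ⁻¹' s.setB ∧ p = ptB') ∨ (y ∈ swapYZ ⁻¹' s.setC ∧ p = ptC'))
    (cz : (z ∈ s.setB ∧ q = ptB) ∨ (z ∈ s.setC ∧ q = ptC) ∨
      (z ∈ swapYZ ⁻¹' s.setB ∧ q = ptB') ∨ (z ∈ swapYZ ⁻¹' s.setC ∧ q = ptC'))
    (h1 : x ≠ y) (h2 : x ≠ z) (h3 : y ≠ z) : s.Good x y z := by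
  have hx' : x ∈ s.carrier := Or.inl (Or.inl (Or.inl (Or.inl hx)))
  have same : dist z p < 1/100 → s.Good x y z := fun h =>
    s.good_swap12 (s.good_swap23 (s.good_big hy hz hx' py.1 h h3))
  have cross : (p = ptB ∨ p = ptC) ∧ (q = ptB' ∨ q = ptC') ∨
      (q = ptB ∨ q = ptC) ∧ (p = ptB' ∨ p = ptC') → s.Good x y z := by
    rintro (⟨hp, hq⟩ | ⟨hq, hp⟩)
    · exact s.good_cross hx py qz (cross_dist hp hq).2 h1 h2 h3
    · exact s.good_cross hx py qz (by rw [dist_comm]; exact (cross_dist hq hp).2) h1 h2 h3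
  rcases cy with ⟨my, rfl⟩ | ⟨my, rfl⟩ | ⟨my, rfl⟩ | ⟨my, rfl⟩ <;>
    rcases cz with ⟨mz, rfl⟩ | ⟨mz, rfl⟩ | ⟨mz, rfl⟩ | ⟨mz, rfl⟩
  all_goals first
    | exact same qz.1
    | exact s.good_sheet hx my mz h1 h2 h3
    | exact s.good_swap23 (s.good_sheet hx mz my h2 h1 h3.symm)
    | exact s.good_sheet' hx my mz h1 h2 h3
    | exact s.good_swap23 (s.good_sheet' hx mz my h2 h1 h3.symm)
    | exact cross (by simp)

theorem good_all {x y z : E3} (hx : x ∈ s.carrier) (hy : y ∈ s.carrier) (hz : z ∈ s.carrier)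
    (h1 : x ≠ y) (h2 : x ≠ z) (h3 : y ≠ z) : s.Good x y z := by
  have two : ∀ {u v : E3}, u ∈ s.dom → v ∈ s.dom → dist u 0 < 1/100 ∧ dist v 0 < 1/100 :=
    fun hu hv => ⟨s.dom_near hu, s.dom_near hv⟩
  rcases s.carrier_cases hx with ax | ⟨p, px, cx⟩ <;>
    rcases s.carrier_cases hy with ay | ⟨q, qy, cy⟩ <;>
      rcases s.carrier_cases hz with az | ⟨r, rz, cz⟩
  · exact s.good_big hx hy hz (two ax ay).1 (two ax ay).2 h1
  · exact s.good_big hx hy hz (two ax ay).1 (two ax ay).2 h1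
  · exact s.good_swap23 (s.good_big hx hz hy (two ax az).1 (two ax az).2 h2)
  · exact s.good_outer ax hy hz qy rz cy cz h1 h2 h3
  · exact s.good_swap12 (s.good_swap23 (s.good_big hy hz hx (two ay az).1 (two ay az).2 h3))
  · exact s.good_swap12 (s.good_outer ay hx hz px rz cx cz h1.symm h3 h2)
  · exact s.good_swap23 (s.good_swap12
      (s.good_outer az hx hy px qy cx cy h2.symm h3.symm h1))
  · apply good_of_lt
    have : 0 ≤ energy x y z := by unfold energy; positivity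
    linarith [px.2.2.1, qy.2.2.1, rz.2.2.1]

end Sheet

end Vale.Agent.P121
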