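import Vale.Agent.P121.Defs

/-!
Local analysis of one sheet of the contact set: a critical point of the tilted Coulomb cost is
a strict global minimiser in the first and third variable.
-/

noncomputable section

open MeasureTheory Filter Topology Metric
open scoped RealInnerProductSpace

namespace Vale.Agent.P121

/-- A point given by its three coordinates. -/
def pt (x y z : ℝ) : E3 := !₂[x, y, z]

@[simp] lemma pt_apply0 (x y z : ℝ) : pt x y z 0 = x := rfl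
@[simp] lemma pt_apply1 (x y z : ℝ) : pt x y z 1 = y := rfl
@[simp] lemma pt_apply2 (x y z : ℝ) : pt x y z 2 = z := rfl

lemma norm_sq_three (v : E3) : ‖v‖ ^ 2 = v 0 ^ 2 + v 1 ^ 2 + v 2 ^ 2 := by
  rw [EuclideanSpace.real_norm_sq_eq, Fin.sum_univ_three]

lemma inner_three (v w : E3) : ⟪v, w⟫ = v 0 * w 0 + v 1 * w 1 + v 2 * w 2 := by
  simp [PiLp.inner_apply, Fin.sum_univ_three]; ring

/-- The gradient of the inverse distance. -/
def grd (v : E3) : E3 := -((‖v‖ ^ 3)⁻¹ • v)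

/-- The real Coulomb cost. -/
def costR (a b d : E3) : ℝ := ‖a - b‖⁻¹ + ‖a - d‖⁻¹ + ‖d - b‖⁻¹

def ptB : E3 := pt 3 4 0
def ptC : E3 := pt 3 (-4) 0
def linA : E3 := pt (6/125) 0 0
def linC : E3 := pt (-3/125) (4/125 + 1/64) 0

/-- The potential near the first site. -/
def potA (a : E3) : ℝ := ⟪linA, a⟫ - ‖a‖ ^ 2 / 2

/-- The potential near the third site. -/
def potC (d : E3) : ℝ := ⟪linC, d - ptC⟫ - ‖d - ptC‖ ^ 2 / 2 + 21/80

/-- The tilted cost. -/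
def tilted (a b d : E3) : ℝ := costR a b d - potA a - potC d

/-- First order condition in the first and third variable. -/
def crit (p : E3 × E3 × E3) : E3 × E3 :=
  (grd (p.1 - p.2.1) + grd (p.1 - p.2.2) - linA + p.1,
    grd (p.2.2 - p.2.1) - grd (p.1 - p.2.2) - linC + (p.2.2 - ptC))

/-- The exact convexity defect of the inverse norm. -/
lemma inv_norm_lower {v h : E3} (hv : v ≠ 0) (hvh : v + h ≠ 0) :
    ‖v‖⁻¹ + ⟪grd v, h⟫ - ‖h‖ ^ 2 / (2 * ‖v‖ ^ 3) ≤ ‖v + h‖⁻¹ := by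
  have hs : 0 < ‖v‖ := norm_pos_iff.mpr hv
  have ht : 0 < ‖v + h‖ := norm_pos_iff.mpr hvh
  have key := norm_add_sq_real v h
  have e1 : ⟪grd v, h⟫ = -((‖v‖ ^ 3)⁻¹ * ⟪v, h⟫) := by
    rw [grd, inner_neg_left, real_inner_smul_left]
  rw [e1]
  generalize hi : ⟪v, h⟫ = i at key ⊢
  generalize hn : ‖v + h‖ = t at key ht ⊢
  generalize hm : ‖v‖ = s at key hs ⊢
  have hi' : i = (t ^ 2 - s ^ 2 - ‖h‖ ^ 2) / 2 := by linarith
  rw [hi']
  have : t⁻¹ - (s⁻¹ + -((s ^ 3)⁻¹ * ((t ^ 2 - s ^ 2 - ‖h‖ ^ 2) / 2)) - ‖h‖ ^ 2 / (2 * s ^ 3))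
      = (t - s) ^ 2 * (t + 2 * s) / (2 * s ^ 3 * t) := by
    field_simp; ring
  have h2 : 0 ≤ (t - s) ^ 2 * (t + 2 * s) / (2 * s ^ 3 * t) := by positivity
  linarith

lemma ne_of_norm_lb {v : E3} {r : ℝ} (hr : 0 < r) (h : r ≤ ‖v‖) : v ≠ 0 := by
  intro hv; simp [hv] at h; linarith

lemma norm_ptB : ‖ptB‖ = 5 := by
  have := norm_sq_three ptB
  simp [ptB] at this ⊢
  nlinarith [norm_nonneg (pt 3 4 0)]

lemma norm_ptC : ‖ptC‖ = 5 := by
  have := norm_sq_three ptC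
  simp [ptC] at this ⊢
  nlinarith [norm_nonneg (pt 3 (-4) 0)]

lemma dist_ptB_ptC : dist ptC ptB = 8 := by
  rw [dist_eq_norm]
  have := norm_sq_three (ptC - ptB)
  simp [ptB, ptC] at this ⊢
  nlinarith [norm_nonneg (pt 3 (-4) 0 - pt 3 4 0)]

lemma dist_bounds {p q a b : E3} {r s : ℝ} (hp : dist a p ≤ r) (hq : dist b q ≤ s) :
    dist p q - r - s ≤ dist a b ∧ dist a b ≤ dist p q + r + s := by
  constructor
  · have := dist_triangle4 p a b q
    rw [dist_comm p a] at this; linarith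
  · have := dist_triangle4 a p q b
    rw [dist_comm q b] at this; linarith

/-- Distances inside a triple near the three sites. -/
lemma near_triple {a b d : E3} (ha : dist a 0 ≤ 1/100) (hb : dist b ptB ≤ 1/100)
    (hd : dist d ptC ≤ 1/100) :
    (249/50 ≤ ‖a - b‖ ∧ ‖a - b‖ ≤ 251/50) ∧ (249/50 ≤ ‖a - d‖ ∧ ‖a - d‖ ≤ 251/50) ∧
      (399/50 ≤ ‖d - b‖ ∧ ‖d - b‖ ≤ 401/50) := by
  have h1 := dist_bounds ha hb
  have h2 := dist_bounds ha hd
  have h3 := dist_bounds hd hb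
  rw [dist_zero_left, norm_ptB] at h1
  rw [dist_zero_left, norm_ptC] at h2
  rw [dist_ptB_ptC] at h3
  simp only [dist_eq_norm] at h1 h2 h3
  refine ⟨⟨?_, ?_⟩, ⟨?_, ?_⟩, ?_, ?_⟩ <;> linarith [h1.1, h1.2, h2.1, h2.2, h3.1, h3.2]

/-- A critical point near the sites is a strict global minimiser. -/
lemma crit_min {a b d a' d' : E3} (ha : dist a 0 ≤ 1/100) (hb : dist b ptB ≤ 1/100)
    (hd : dist d ptC ≤ 1/100) (hF : crit (a, b, d) = 0) (h1 : a' ≠ b) (h2 : a' ≠ d')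
    (h3 : d' ≠ b) :
    tilted a b d + (‖a' - a‖ ^ 2 + ‖d' - d‖ ^ 2) / 4 ≤ tilted a' b d' := by
  obtain ⟨⟨r1, -⟩, ⟨r2, -⟩, r3, -⟩ := near_triple ha hb hd
  obtain ⟨h, rfl⟩ : ∃ h, a' = a + h := ⟨a' - a, by abel⟩
  obtain ⟨k, rfl⟩ : ∃ k, d' = d + k := ⟨d' - d, by abel⟩
  have n1 : (a - b) + h ≠ 0 := by
    rw [show a - b + h = a + h - b by abel]; exact sub_ne_zero.mpr h1
  have n2 : (a - d) + (h - k) ≠ 0 := by
    rw [show a - d + (h - k) = a + h - (d + k) by abel]; exact sub_ne_zero.mpr h2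
  have n3 : (d - b) + k ≠ 0 := by
    rw [show d - b + k = d + k - b by abel]; exact sub_ne_zero.mpr h3
  have i1 := inv_norm_lower (ne_of_norm_lb (by norm_num) r1) n1
  have i2 := inv_norm_lower (ne_of_norm_lb (by norm_num) r2) n2
  have i3 := inv_norm_lower (ne_of_norm_lb (by norm_num) r3) n3
  rw [show a - b + h = a + h - b by abel] at i1
  rw [show a - d + (h - k) = a + h - (d + k) by abel] at i2
  rw [show d - b + k = d + k - b by abel] at i3
  have q : ∀ {v x : E3}, (4:ℝ) ≤ ‖v‖ → ‖x‖ ^ 2 / (2 * ‖v‖ ^ 3) ≤ ‖x‖ ^ 2 / 128 := by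
    intro v x hv
    have : (4:ℝ) ^ 3 ≤ ‖v‖ ^ 3 := pow_le_pow_left₀ (by norm_num) hv 3
    gcongr
    linarith
  have q1 := q (v := a - b) (x := h) (by linarith)
  have q2 := q (v := a - d) (x := h - k) (by linarith)
  have q3 := q (v := d - b) (x := k) (by linarith)
  have e1 : grd (a - b) + grd (a - d) = linA - a := by
    have e0 : grd (a - b) + grd (a - d) - linA + a = 0 := congrArg Prod.fst hF
    rw [← sub_eq_zero, ← e0]; abel
  have e2 : grd (d - b) - grd (a - d) = linC - (d - ptC) := by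
    have e0 : grd (d - b) - grd (a - d) - linC + (d - ptC) = 0 := congrArg Prod.snd hF
    rw [← sub_eq_zero, ← e0]; abel
  have f1 := congrArg (fun z => ⟪z, h⟫) e1
  have f2 := congrArg (fun z => ⟪z, k⟫) e2
  simp only [inner_add_left, inner_sub_left] at f1 f2
  rw [inner_sub_right] at i2
  have hh := norm_sub_sq_real h k
  have hhk : ‖h - k‖ ^ 2 ≤ 2 * ‖h‖ ^ 2 + 2 * ‖k‖ ^ 2 := by
    nlinarith [norm_add_sq_real h k, sq_nonneg ‖h + k‖]
  simp only [tilted, potA, potC, costR, add_sub_cancel_left]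
  rw [show d + k - ptC = (d - ptC) + k by abel]
  simp only [inner_add_right, inner_sub_left, norm_add_sq_real]
  linarith [sq_nonneg ‖h‖, sq_nonneg ‖k‖]

/-- The derivative of the gradient of the inverse norm at `v`. -/
def dgrd (v : E3) : E3 →L[ℝ] E3 :=
  (3 * (‖v‖ ^ 5)⁻¹) • (innerSL ℝ v).smulRight v - (‖v‖ ^ 3)⁻¹ • ContinuousLinearMap.id ℝ E3

lemma dgrd_apply (v x : E3) :
    dgrd v x = (3 * (‖v‖ ^ 5)⁻¹ * ⟪v, x⟫) • v - (‖v‖ ^ 3)⁻¹ • x := by
  simp [dgrd, mul_smul]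

lemma hasStrictFDerivAt_grd {v : E3} (hv : v ≠ 0) :
    HasStrictFDerivAt grd (dgrd v) v := by
  have hs : 0 < ‖v‖ := norm_pos_iff.mpr hv
  have h1 := (hasStrictFDerivAt_norm_sq v).sqrt (pow_pos hs 2).ne'
  have h2 : HasStrictDerivAt (fun s : ℝ => (s ^ 3)⁻¹) (-(3 * ‖v‖ ^ 2) / (‖v‖ ^ 3) ^ 2) ‖v‖ := by
    have hp : HasStrictDerivAt (fun x : ℝ => x ^ 3) _ ‖v‖ := hasStrictDerivAt_pow 3 ‖v‖
    have hi : HasStrictDerivAt (fun x : ℝ => x⁻¹) _ (‖v‖ ^ 3) :=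
      hasStrictDerivAt_inv (pow_ne_zero 3 hs.ne')
    have := HasStrictDerivAt.comp ‖v‖ (h₂ := fun x : ℝ => x⁻¹)
      (h := fun x : ℝ => x ^ 3) hi hp
    exact this.congr_deriv (by push_cast; field_simp)
  have e : Real.sqrt (‖v‖ ^ 2) = ‖v‖ := Real.sqrt_sq hs.le
  rw [← e] at h2
  have h3 := (h2.comp_hasStrictFDerivAt v h1).fun_smul (hasStrictFDerivAt_id v)
  have h4 := h3.fun_neg
  refine (h4.congr_fderiv ?_).congr_of_eventuallyEq ?_
  · ext x
    simp [dgrd_apply, mul_smul]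
    field_simp
    ring
  · filter_upwards with x
    simp [grd]

end Vale.Agent.P121

namespace Vale.Agent.P121

lemma norm_ptC_sub_ptB : ‖ptC - ptB‖ = 8 := by
  rw [← dist_eq_norm, dist_ptB_ptC]

lemma crit_center : crit (0, ptB, ptC) = 0 := by
  have n1 : ‖(0:E3) - ptB‖ = 5 := by rw [zero_sub, norm_neg, norm_ptB]
  have n2 : ‖(0:E3) - ptC‖ = 5 := by rw [zero_sub, norm_neg, norm_ptC]
  unfold crit grd
  simp only [n1, n2, norm_ptC_sub_ptB, Prod.mk_eq_zero]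
  constructor <;> ext i <;> fin_cases i <;> simp [ptB, ptC, linA, linC] <;> norm_num

/-- The centre of the sheet. -/
def ctr : E3 × E3 × E3 := (0, ptB, ptC)

open ContinuousLinearMap in
/-- The derivative of `crit` at the centre. -/
def dcrit : (E3 × E3 × E3) →L[ℝ] (E3 × E3) :=
  let pa : (E3 × E3 × E3) →L[ℝ] E3 := ContinuousLinearMap.fst ℝ E3 (E3 × E3)
  let pb : (E3 × E3 × E3) →L[ℝ] E3 :=
    (ContinuousLinearMap.fst ℝ E3 E3).comp (ContinuousLinearMap.snd ℝ E3 (E3 × E3))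
  let pd : (E3 × E3 × E3) →L[ℝ] E3 :=
    (ContinuousLinearMap.snd ℝ E3 E3).comp (ContinuousLinearMap.snd ℝ E3 (E3 × E3))
  ((dgrd (0 - ptB)).comp (pa - pb) + (dgrd (0 - ptC)).comp (pa - pd) + pa).prod
    ((dgrd (ptC - ptB)).comp (pd - pb) - (dgrd (0 - ptC)).comp (pa - pd) + pd)

lemma hasStrictFDerivAt_crit : HasStrictFDerivAt crit dcrit ctr := by
  have ha : HasStrictFDerivAt (fun p : E3 × E3 × E3 => p.1)
      (ContinuousLinearMap.fst ℝ E3 (E3 × E3)) ctr := hasStrictFDerivAt_fst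
  have hs : HasStrictFDerivAt (fun p : E3 × E3 × E3 => p.2)
      (ContinuousLinearMap.snd ℝ E3 (E3 × E3)) ctr := hasStrictFDerivAt_snd
  have hb : HasStrictFDerivAt (fun p : E3 × E3 × E3 => p.2.1) _ ctr := hs.fst
  have hd : HasStrictFDerivAt (fun p : E3 × E3 × E3 => p.2.2) _ ctr := hs.snd
  have z1 : (0:E3) - ptB ≠ 0 := ne_of_norm_lb (r := 5) (by norm_num)
    (by rw [zero_sub, norm_neg, norm_ptB])
  have z2 : (0:E3) - ptC ≠ 0 := ne_of_norm_lb (r := 5) (by norm_num)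
    (by rw [zero_sub, norm_neg, norm_ptC])
  have z3 : ptC - ptB ≠ 0 := ne_of_norm_lb (r := 8) (by norm_num) norm_ptC_sub_ptB.ge
  have g1 := (hasStrictFDerivAt_grd z1).comp ctr (ha.fun_sub hb)
  have g2 := (hasStrictFDerivAt_grd z2).comp ctr (ha.fun_sub hd)
  have g3 := (hasStrictFDerivAt_grd z3).comp ctr (hd.fun_sub hb)
  exact (((g1.fun_add g2).sub_const linA).fun_add ha).prodMk
    (((g3.fun_sub g2).sub_const linC).fun_add (hd.sub_const ptC))

lemma dcrit_apply (x y z : E3) : dcrit (x, y, z) =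
    (dgrd (0 - ptB) (x - y) + dgrd (0 - ptC) (x - z) + x,
      dgrd (ptC - ptB) (z - y) - dgrd (0 - ptC) (x - z) + z) := by
  simp [dcrit]

lemma dcrit_ker (x y z : E3) (h : dcrit (x, y, z) = 0) (h0 : x = 0 ∨ y = 0 ∨ z = 0) :
    x = 0 ∧ y = 0 ∧ z = 0 := by
  have n1 : ‖(0:E3) - ptB‖ = 5 := by rw [zero_sub, norm_neg, norm_ptB]
  have n2 : ‖(0:E3) - ptC‖ = 5 := by rw [zero_sub, norm_neg, norm_ptC]
  rw [dcrit_apply, Prod.mk_eq_zero] at h
  simp only [dgrd_apply, n1, n2, norm_ptC_sub_ptB, inner_three] at h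
  obtain ⟨hA, hD⟩ := h
  have a0 := congrArg (fun v : E3 => v 0) hA
  have a1 := congrArg (fun v : E3 => v 1) hA
  have a2 := congrArg (fun v : E3 => v 2) hA
  have d0 := congrArg (fun v : E3 => v 0) hD
  have d1 := congrArg (fun v : E3 => v 1) hD
  have d2 := congrArg (fun v : E3 => v 2) hD
  clear hA hD
  simp [ptB, ptC] at a0 a1 a2 d0 d1 d2
  ring_nf at a0 a1 a2 d0 d1 d2
  rcases h0 with rfl | rfl | rfl <;> simp at a0 a1 a2 d0 d1 d2 <;>
    refine ⟨?_, ?_, ?_⟩ <;> ext i <;> fin_cases i <;> simp <;> linarith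

end Vale.Agent.P121
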