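import Vale.Agent.P121.Dual

/-!
The counterexample measure and the proof that it has no optimal Monge plan.
-/

noncomputable section

open MeasureTheory Filter Topology Metric Set
open scoped NNReal ENNReal

namespace Vale.Agent.P121

lemma volume_null_image {K : ℝ≥0} {f : E3 → E3} (hf : LipschitzWith K f) {N : Set E3}
    (hN : volume N = 0) : volume (f '' N) = 0 := by
  set h : Measure E3 := Measure.hausdorffMeasure (Module.finrank ℝ E3 : ℝ)
  have h0 : h N = 0 := Measure.absolutelyContinuous_isAddHaarMeasure h volume hN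
  have h1 : h (f '' N) = 0 := by
    refine le_antisymm ?_ bot_le
    calc h (f '' N) ≤ (K : ℝ≥0∞) ^ (Module.finrank ℝ E3 : ℝ) * h N :=
          hf.hausdorffMeasure_image_le (Nat.cast_nonneg _) N
      _ = 0 := by rw [h0, mul_zero]
  exact Measure.absolutelyContinuous_isAddHaarMeasure volume h h1

lemma map_absolutelyContinuous {U : Set E3} (hU : MeasurableSet U) {f g : E3 → E3} {K : ℝ≥0}
    (hf : Measurable f) (hg : LipschitzWith K g) (hfg : ∀ a ∈ U, g (f a) = a) :
    (volume.restrict U).map f ≪ (volume : Measure E3) := by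
  refine Measure.AbsolutelyContinuous.mk fun N hN h0 => ?_
  rw [Measure.map_apply hf hN, Measure.restrict_apply' hU]
  refine measure_mono_null ?_ (volume_null_image hg h0)
  rintro a ⟨ha, hu⟩
  exact ⟨f a, ha, hfg a hu⟩

lemma measurable_coulombCost : Measurable coulombCost := by
  unfold coulombCost
  fun_prop

namespace Sheet

variable (s : Sheet)

lemma measurableSet_dom : MeasurableSet s.dom := measurableSet_ball

lemma measurable_invB : Measurable s.invB := s.lip_invB.continuous.measurable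

lemma measurable_invC : Measurable s.invC := s.lip_invC.continuous.measurable

lemma measurableSet_setB : MeasurableSet s.setB :=
  (measurableSet_ball (x := ptB) (ε := 1/100)).inter
    ((s.measurable_invB s.measurableSet_dom).inter
      (measurableSet_eq_fun (s.meas_fwdB.comp s.measurable_invB) measurable_id))

lemma measurableSet_setC : MeasurableSet s.setC :=
  (measurableSet_ball (x := ptC) (ε := 1/100)).inter
    ((s.measurable_invC s.measurableSet_dom).inter
      (measurableSet_eq_fun (s.meas_fwdC.comp s.measurable_invC) measurable_id))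

lemma measurableSet_carrier : MeasurableSet s.carrier :=
  (((s.measurableSet_dom.union s.measurableSet_setB).union s.measurableSet_setC).union
    (swapYZ.continuous.measurable s.measurableSet_setB)).union
    (swapYZ.continuous.measurable s.measurableSet_setC)

/-- The second sheet, towards the second site. -/
def fwdB' (a : E3) : E3 := swapYZ (s.fwdB (swapYZ a))

/-- The second sheet, towards the third site. -/
def fwdC' (a : E3) : E3 := swapYZ (s.fwdC (swapYZ a))

lemma meas_fwdB' : Measurable s.fwdB' :=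
  swapYZ.continuous.measurable.comp (s.meas_fwdB.comp swapYZ.continuous.measurable)

lemma meas_fwdC' : Measurable s.fwdC' :=
  swapYZ.continuous.measurable.comp (s.meas_fwdC.comp swapYZ.continuous.measurable)

lemma mem_setB {a : E3} (h : a ∈ s.dom) : s.fwdB a ∈ s.setB := by
  have h' := s.mem_dom.mp h
  refine ⟨s.near_fwdB a h', ?_, ?_⟩ <;> rw [s.invB_fwd a h']
  exact h

lemma mem_setC {a : E3} (h : a ∈ s.dom) : s.fwdC a ∈ s.setC := by
  have h' := s.mem_dom.mp h
  refine ⟨s.near_fwdC a h', ?_, ?_⟩ <;> rw [s.invC_fwd a h']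
  exact h

lemma mem_setB' {a : E3} (h : a ∈ s.dom) : swapYZ (s.fwdB' a) ∈ s.setB := by
  rw [fwdB', swapYZ_swapYZ]; exact s.mem_setB (s.swap_mem_dom h)

lemma mem_setC' {a : E3} (h : a ∈ s.dom) : swapYZ (s.fwdC' a) ∈ s.setC := by
  rw [fwdC', swapYZ_swapYZ]; exact s.mem_setC (s.swap_mem_dom h)

lemma mem_carrier {a : E3} (h : a ∈ s.dom) : a ∈ s.carrier ∧ s.fwdB a ∈ s.carrier ∧
    s.fwdC a ∈ s.carrier ∧ s.fwdB' a ∈ s.carrier ∧ s.fwdC' a ∈ s.carrier :=
  ⟨Or.inl (Or.inl (Or.inl (Or.inl h))), Or.inl (Or.inl (Or.inl (Or.inr (s.mem_setB h)))),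
    Or.inl (Or.inl (Or.inr (s.mem_setC h))), Or.inl (Or.inr (s.mem_setB' h)),
    Or.inr (s.mem_setC' h)⟩

/-- Lebesgue measure on the domain of the sheet. -/
def base : Measure E3 := volume.restrict s.dom

/-- The normalising constant. -/
def kappa : ℝ≥0∞ := (6 * volume s.dom)⁻¹

lemma volume_dom_pos : 0 < volume s.dom := measure_ball_pos _ _ s.rad_pos

lemma volume_dom_lt_top : volume s.dom < ⊤ := measure_ball_lt_top

lemma kappa_ne_zero : s.kappa ≠ 0 :=
  ENNReal.inv_ne_zero.mpr (ENNReal.mul_ne_top (by norm_num) s.volume_dom_lt_top.ne)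

lemma kappa_ne_top : s.kappa ≠ ⊤ :=
  ENNReal.inv_ne_top.mpr (mul_ne_zero (by norm_num) s.volume_dom_pos.ne')

/-- The counterexample measure. -/
def marg : Measure E3 :=
  s.kappa • (s.base + s.base + s.base.map s.fwdB + s.base.map s.fwdC + s.base.map s.fwdB' +
    s.base.map s.fwdC')

lemma marg_apply {t : Set E3} (ht : MeasurableSet t) :
    s.marg t = s.kappa * (s.base t + s.base t + s.base (s.fwdB ⁻¹' t) + s.base (s.fwdC ⁻¹' t) +
      s.base (s.fwdB' ⁻¹' t) + s.base (s.fwdC' ⁻¹' t)) := by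
  simp [marg, Measure.map_apply s.meas_fwdB ht, Measure.map_apply s.meas_fwdC ht,
    Measure.map_apply s.meas_fwdB' ht, Measure.map_apply s.meas_fwdC' ht]
  ring

lemma isProbabilityMeasure_marg : IsProbabilityMeasure s.marg := by
  constructor
  rw [s.marg_apply MeasurableSet.univ]
  simp only [preimage_univ, base, Measure.restrict_apply_univ, kappa]
  rw [show volume s.dom + volume s.dom + volume s.dom + volume s.dom + volume s.dom + volume s.dom
    = 6 * volume s.dom by ring]
  exact ENNReal.inv_mul_cancel (mul_ne_zero (by norm_num) s.volume_dom_pos.ne')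
    (ENNReal.mul_ne_top (by norm_num) s.volume_dom_lt_top.ne)

lemma marg_absolutelyContinuous : s.marg ≪ (volume : Measure E3) := by
  have hb : s.base ≪ (volume : Measure E3) := Measure.restrict_le_self.absolutelyContinuous
  have hB := map_absolutelyContinuous s.measurableSet_dom s.meas_fwdB s.lip_invB
    fun a ha => s.invB_fwd a (s.mem_dom.mp ha)
  have hC := map_absolutelyContinuous s.measurableSet_dom s.meas_fwdC s.lip_invC
    fun a ha => s.invC_fwd a (s.mem_dom.mp ha)
  have hB' := map_absolutelyContinuous s.measurableSet_dom s.meas_fwdB'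
    ((swapYZ.lipschitz.comp s.lip_invB).comp swapYZ.lipschitz) (fun a ha => by
      simp [fwdB', s.invB_fwd _ (s.mem_dom.mp (s.swap_mem_dom ha))])
  have hC' := map_absolutelyContinuous s.measurableSet_dom s.meas_fwdC'
    ((swapYZ.lipschitz.comp s.lip_invC).comp swapYZ.lipschitz) (fun a ha => by
      simp [fwdC', s.invC_fwd _ (s.mem_dom.mp (s.swap_mem_dom ha))])
  refine Measure.AbsolutelyContinuous.mk fun N hN h0 => ?_
  have e1 := hB h0; have e2 := hC h0; have e3 := hB' h0; have e4 := hC' h0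
  rw [Measure.map_apply s.meas_fwdB hN] at e1
  rw [Measure.map_apply s.meas_fwdC hN] at e2
  rw [Measure.map_apply s.meas_fwdB' hN] at e3
  rw [Measure.map_apply s.meas_fwdC' hN] at e4
  have e0 : s.base N = 0 := hb h0
  rw [s.marg_apply hN]
  simp only [base] at e0 e1 e2 e3 e4 ⊢
  simp [e0, e1, e2, e3, e4]

lemma ae_carrier : ∀ᵐ x ∂s.marg, x ∈ s.carrier := by
  rw [ae_iff]
  change s.marg s.carrierᶜ = 0
  rw [s.marg_apply s.measurableSet_carrier.compl]
  have z : ∀ f : E3 → E3, (∀ a ∈ s.dom, f a ∈ s.carrier) → s.base (f ⁻¹' s.carrierᶜ) = 0 := by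
    intro f hf
    rw [base, Measure.restrict_apply' s.measurableSet_dom]
    rw [show f ⁻¹' s.carrierᶜ ∩ s.dom = ∅ from
      eq_empty_of_forall_notMem fun a ha => ha.1 (hf a ha.2), measure_empty]
  have z0 := z id fun a ha => (s.mem_carrier ha).1
  rw [preimage_id] at z0
  rw [z0, z _ fun a ha => (s.mem_carrier ha).2.1, z _ fun a ha => (s.mem_carrier ha).2.2.1,
    z _ fun a ha => (s.mem_carrier ha).2.2.2.1, z _ fun a ha => (s.mem_carrier ha).2.2.2.2]
  simp

/-- The shifted dual potential with values in the extended nonnegative reals. -/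
def epot (x : E3) : ℝ≥0∞ := ENNReal.ofReal (s.pot x + 3)

lemma measurable_epot : Measurable s.epot := by
  have hR : Measurable (swapYZ : E3 → E3) := swapYZ.continuous.measurable
  have hA : Measurable potA := by unfold potA; fun_prop
  have hC : Measurable potC := by unfold potC; fun_prop
  have hl : Measurable s.level := by
    have h2 := s.meas_fwdB
    have h3 := s.meas_fwdC
    unfold level tilted costR
    fun_prop
  have hlB : Measurable fun x => s.level (s.invB x) := hl.comp s.measurable_invB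
  have hp : Measurable s.pot := by
    unfold pot
    refine Measurable.ite measurableSet_ball (hA.add_const 2) ?_
    refine Measurable.ite measurableSet_ball (hlB.sub_const 1) ?_
    refine Measurable.ite measurableSet_ball (hC.sub_const 1) ?_
    exact Measurable.ite (hR measurableSet_ball) ((hlB.comp hR).sub_const 1)
      ((hC.comp hR).sub_const 1)
  exact (hp.add_const 3).ennreal_ofReal

lemma edist_inv_top {x y : E3} (h : x = y) : (edist x y)⁻¹ = (⊤ : ℝ≥0∞) := by simp [h]

lemma distinct_of_ne_top {x y z : E3} (h : coulombCost (x, y, z) ≠ ⊤) :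
    x ≠ y ∧ x ≠ z ∧ y ≠ z := by
  refine ⟨?_, ?_, ?_⟩ <;> intro e <;> apply h <;> simp [coulombCost, e]

lemma energy_nonneg (x y z : E3) : 0 ≤ energy x y z := by unfold energy; positivity

lemma epot_sum {x y z : E3} (hx : x ∈ s.carrier) (hy : y ∈ s.carrier) (hz : z ∈ s.carrier) :
    s.epot x + s.epot y + s.epot z = ENNReal.ofReal (s.pot x + s.pot y + s.pot z + 9) := by
  have a := (s.pot_range hx).1
  have b := (s.pot_range hy).1
  have c := (s.pot_range hz).1
  rw [epot, epot, epot, ← ENNReal.ofReal_add (by linarith) (by linarith),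
    ← ENNReal.ofReal_add (by linarith) (by linarith)]
  ring_nf

lemma cost_add_nine {x y z : E3} (h1 : x ≠ y) (h2 : x ≠ z) (h3 : y ≠ z) :
    coulombCost (x, y, z) + 9 = ENNReal.ofReal (energy x y z + 9) := by
  rw [coulombCost_eq h1 h2 h3, ENNReal.ofReal_add (energy_nonneg x y z) (by norm_num)]
  norm_num

lemma dual_le {x y z : E3} (hx : x ∈ s.carrier) (hy : y ∈ s.carrier) (hz : z ∈ s.carrier) :
    s.epot x + s.epot y + s.epot z ≤ coulombCost (x, y, z) + 9 := by
  by_cases h : coulombCost (x, y, z) = ⊤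
  · rw [h, top_add]; exact le_top
  · obtain ⟨h1, h2, h3⟩ := distinct_of_ne_top h
    rw [s.epot_sum hx hy hz, cost_add_nine h1 h2 h3]
    exact ENNReal.ofReal_le_ofReal (by linarith [(s.good_all hx hy hz h1 h2 h3).1])

lemma contact_of_eq {x y z : E3} (hx : x ∈ s.carrier) (hy : y ∈ s.carrier) (hz : z ∈ s.carrier)
    (e : s.epot x + s.epot y + s.epot z = coulombCost (x, y, z) + 9) :
    (x ≠ y ∧ x ≠ z ∧ y ≠ z) ∧ s.Contact x y z := by
  rw [s.epot_sum hx hy hz] at e
  have h : coulombCost (x, y, z) ≠ ⊤ := fun h => by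
    rw [h, top_add] at e; exact ENNReal.ofReal_ne_top e
  obtain ⟨h1, h2, h3⟩ := distinct_of_ne_top h
  rw [cost_add_nine h1 h2 h3] at e
  have a := (s.pot_range hx).1
  have b := (s.pot_range hy).1
  have c := (s.pot_range hz).1
  rw [ENNReal.ofReal_eq_ofReal_iff (by linarith) (by linarith [energy_nonneg x y z])] at e
  exact ⟨⟨h1, h2, h3⟩, (s.good_all hx hy hz h1 h2 h3).2 (by linarith)⟩

lemma ne_of_far {x y p q : E3} (h : 1 ≤ dist p q) (hx : dist x p < 1/100)
    (hy : dist y q < 1/100) : x ≠ y := by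
  rintro rfl; exact sep h hx hy

lemma sheet_eq {a : E3} (ha : a ∈ s.dom) :
    s.epot a + s.epot (s.fwdB a) + s.epot (s.fwdC a) =
        coulombCost (a, s.fwdB a, s.fwdC a) + 9 ∧
      s.epot a + s.epot (s.fwdB' a) + s.epot (s.fwdC' a) =
        coulombCost (a, s.fwdB' a, s.fwdC' a) + 9 := by
  have main : ∀ a ∈ s.dom,
      (a ≠ s.fwdB a ∧ a ≠ s.fwdC a ∧ s.fwdB a ≠ s.fwdC a) ∧
      potA a + s.level a + potC (s.fwdC a) = energy a (s.fwdB a) (s.fwdC a) := by
    intro a ha
    have h' := s.mem_dom.mp ha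
    refine ⟨⟨?_, ?_, ?_⟩, ?_⟩
    · exact ne_of_far (by rw [dist_zero_left, norm_ptB]; norm_num) (s.dom_near ha) (s.near_fwdB a h')
    · exact ne_of_far (by rw [dist_zero_left, norm_ptC]; norm_num) (s.dom_near ha) (s.near_fwdC a h')
    · exact (ne_of_far (by rw [dist_ptB_ptC]; norm_num) (s.near_fwdC a h')
        (s.near_fwdB a h')).symm
    · rw [energy_eq_costR]; simp only [level, tilted]; ring
  obtain ⟨c0, cB, cC, cB', cC'⟩ := s.mem_carrier ha
  constructor
  · obtain ⟨⟨h1, h2, h3⟩, e⟩ := main a ha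
    rw [s.epot_sum c0 cB cC, cost_add_nine h1 h2 h3, s.pot_dom ha, s.pot_B (s.mem_setB ha).1,
      s.pot_C (s.mem_setC ha).1, s.invB_fwd a (s.mem_dom.mp ha)]
    congr 1; linarith
  · obtain ⟨⟨h1, h2, h3⟩, e⟩ := main _ (s.swap_mem_dom ha)
    have inj := swapYZ.injective
    have g1 : a ≠ s.fwdB' a := fun h => h1 (by
      conv_lhs => rw [h, fwdB', swapYZ_swapYZ])
    have g2 : a ≠ s.fwdC' a := fun h => h2 (by
      conv_lhs => rw [h, fwdC', swapYZ_swapYZ])
    have g3 : s.fwdB' a ≠ s.fwdC' a := fun h => h3 (inj h)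
    have ee : energy a (s.fwdB' a) (s.fwdC' a) =
        energy (swapYZ a) (s.fwdB (swapYZ a)) (s.fwdC (swapYZ a)) := by
      rw [← energy_swapYZ a]; simp [fwdB', fwdC']
    rw [s.epot_sum c0 cB' cC', cost_add_nine g1 g2 g3, s.pot_dom ha,
      s.pot_B' (s.mem_setB' ha).1, s.pot_C' (s.mem_setC' ha).1, ee]
    simp only [fwdB', fwdC', swapYZ_swapYZ, s.invB_fwd _ (s.mem_dom.mp (s.swap_mem_dom ha))]
    rw [potA_swapYZ] at e
    congr 1; linarith

/-- A cyclic symmetrisation of the two sheets. -/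
def plan : Measure (E3 × E3 × E3) :=
  s.kappa • (s.base.map (fun a => (a, s.fwdB a, s.fwdC a)) +
    s.base.map (fun a => (s.fwdB a, s.fwdC a, a)) + s.base.map (fun a => (s.fwdC a, a, s.fwdB a)) +
    s.base.map (fun a => (a, s.fwdB' a, s.fwdC' a)) +
    s.base.map (fun a => (s.fwdB' a, s.fwdC' a, a)) +
    s.base.map (fun a => (s.fwdC' a, a, s.fwdB' a)))

lemma plan_coupling : IsCoupling s.marg s.plan := by
  have h1 := s.meas_fwdB
  have h2 := s.meas_fwdC
  have h3 := s.meas_fwdB'
  have h4 := s.meas_fwdC'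
  refine ⟨?_, ?_, ?_⟩ <;>
    (simp (disch := fun_prop) only [plan, marg, Measure.map_smul, Measure.map_add,
        Measure.map_map, Function.comp_def]
     simp only [Measure.map_id']
     congr 1; abel)

lemma cost_rot (x y z : E3) : coulombCost (y, z, x) = coulombCost (x, y, z) := by
  simp only [coulombCost]; rw [edist_comm y x, edist_comm z x]; ring

lemma plan_cost : ∀ᵐ p ∂s.plan,
    coulombCost p + 9 = s.epot p.1 + s.epot p.2.1 + s.epot p.2.2 := by
  have h1 := s.meas_fwdB
  have h2 := s.meas_fwdC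
  have h3 := s.meas_fwdB'
  have h4 := s.meas_fwdC'
  have hm : MeasurableSet {p : E3 × E3 × E3 |
      coulombCost p + 9 = s.epot p.1 + s.epot p.2.1 + s.epot p.2.2} := by
    have := s.measurable_epot
    exact measurableSet_eq_fun (measurable_coulombCost.add_const 9) (by fun_prop)
  have key : ∀ f : E3 → E3 × E3 × E3, Measurable f →
      (∀ a ∈ s.dom, coulombCost (f a) + 9 = s.epot (f a).1 + s.epot (f a).2.1 + s.epot (f a).2.2) →
      ∀ᵐ p ∂(s.base.map f), coulombCost p + 9 = s.epot p.1 + s.epot p.2.1 + s.epot p.2.2 := by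
    intro f hf h
    rw [ae_map_iff hf.aemeasurable hm]
    filter_upwards [ae_restrict_mem s.measurableSet_dom] with a ha using h a ha
  rw [plan]
  apply Measure.ae_smul_measure
  simp only [ae_add_measure_iff]
  refine ⟨⟨⟨⟨⟨?_, ?_⟩, ?_⟩, ?_⟩, ?_⟩, ?_⟩ <;> refine key _ (by fun_prop) fun a ha => ?_
  · exact (s.sheet_eq ha).1.symm
  · rw [cost_rot, ← (s.sheet_eq ha).1]; ring
  · rw [cost_rot, cost_rot, ← (s.sheet_eq ha).1]; ring
  · exact (s.sheet_eq ha).2.symm
  · rw [cost_rot, ← (s.sheet_eq ha).2]; ring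
  · rw [cost_rot, cost_rot, ← (s.sheet_eq ha).2]; ring

/-- The dual value. -/
def dualValue : ℝ≥0∞ := 3 * ∫⁻ x, s.epot x ∂s.marg

lemma lintegral_sum {π : Measure (E3 × E3 × E3)} (hπ : IsCoupling s.marg π) :
    ∫⁻ p, s.epot p.1 + s.epot p.2.1 + s.epot p.2.2 ∂π = s.dualValue := by
  have he := s.measurable_epot
  obtain ⟨e1, e2, e3⟩ := hπ
  rw [lintegral_add_left (by fun_prop), lintegral_add_left (by fun_prop)]
  rw [← lintegral_map he (by fun_prop : Measurable fun p : E3 × E3 × E3 => p.1),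
    ← lintegral_map he (by fun_prop : Measurable fun p : E3 × E3 × E3 => p.2.1),
    ← lintegral_map he (by fun_prop : Measurable fun p : E3 × E3 × E3 => p.2.2),
    e1, e2, e3, dualValue]
  ring

lemma coupling_univ {π : Measure (E3 × E3 × E3)} (hπ : IsCoupling s.marg π) : π univ = 1 := by
  have := congrArg (fun m : Measure E3 => m univ) hπ.1
  rw [Measure.map_apply (by fun_prop) MeasurableSet.univ, preimage_univ,
    s.isProbabilityMeasure_marg.measure_univ] at this
  exact this

lemma lintegral_cost_nine {π : Measure (E3 × E3 × E3)} (hπ : IsCoupling s.marg π) :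
    ∫⁻ p, coulombCost p + 9 ∂π = (∫⁻ p, coulombCost p ∂π) + 9 := by
  rw [lintegral_add_left measurable_coulombCost, lintegral_const, s.coupling_univ hπ, mul_one]

lemma dual_le_cost {π : Measure (E3 × E3 × E3)} (hπ : IsCoupling s.marg π) :
    s.dualValue ≤ (∫⁻ p, coulombCost p ∂π) + 9 := by
  rw [← s.lintegral_cost_nine hπ, ← s.lintegral_sum hπ]
  apply lintegral_mono_ae
  obtain ⟨e1, e2, e3⟩ := hπ
  have g1 : ∀ᵐ p ∂π, p.1 ∈ s.carrier :=
    ae_of_ae_map (f := fun p : E3 × E3 × E3 => p.1) (p := (· ∈ s.carrier))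
      (by fun_prop) (e1.symm ▸ s.ae_carrier)
  have g2 : ∀ᵐ p ∂π, p.2.1 ∈ s.carrier :=
    ae_of_ae_map (f := fun p : E3 × E3 × E3 => p.2.1) (p := (· ∈ s.carrier))
      (by fun_prop) (e2.symm ▸ s.ae_carrier)
  have g3 : ∀ᵐ p ∂π, p.2.2 ∈ s.carrier :=
    ae_of_ae_map (f := fun p : E3 × E3 × E3 => p.2.2) (p := (· ∈ s.carrier))
      (by fun_prop) (e3.symm ▸ s.ae_carrier)
  filter_upwards [g1, g2, g3] with p a b c using s.dual_le a b c

lemma value_add_nine : kantorovichValue s.marg + 9 = s.dualValue := by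
  refine le_antisymm ?_ ?_
  · calc kantorovichValue s.marg + 9 ≤ (∫⁻ p, coulombCost p ∂s.plan) + 9 := by
          gcongr
          exact iInf_le_of_le ⟨s.plan, s.plan_coupling⟩ le_rfl
      _ = s.dualValue := by
          rw [← s.lintegral_cost_nine s.plan_coupling, lintegral_congr_ae s.plan_cost,
            s.lintegral_sum s.plan_coupling]
  · rw [kantorovichValue, ENNReal.iInf_add]
    exact le_iInf fun π => s.dual_le_cost π.2

lemma dualValue_lt_top : s.dualValue < ⊤ := by
  refine ENNReal.mul_lt_top (by norm_num) ?_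
  calc ∫⁻ x, s.epot x ∂s.marg ≤ ∫⁻ _, 6 ∂s.marg := by
        refine lintegral_mono_ae ?_
        filter_upwards [s.ae_carrier] with x hx
        rw [epot, ← ENNReal.ofReal_ofNat 6]
        exact ENNReal.ofReal_le_ofReal (by linarith [(s.pot_range hx).2])
    _ = 6 := by rw [lintegral_const, s.isProbabilityMeasure_marg.measure_univ, mul_one]
    _ < ⊤ := by norm_num

lemma value_lt_top : kantorovichValue s.marg < ⊤ :=
  lt_of_le_of_lt (le_self_add) (s.value_add_nine ▸ s.dualValue_lt_top)

/-- The unit mass indicator. -/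
def ind (t : Set E3) (x : E3) : ℝ≥0∞ := t.indicator (fun _ => 1) x

lemma ind_of_mem {t : Set E3} {x : E3} (h : x ∈ t) : ind t x = 1 := indicator_of_mem h _

lemma ind_of_not {t : Set E3} {x : E3} (h : x ∉ t) : ind t x = 0 := indicator_of_notMem h _

lemma lintegral_ind {t : Set E3} (ht : MeasurableSet t) (m : Measure E3) :
    ∫⁻ x, ind t x ∂m = m t := lintegral_indicator_one ht

lemma base_congr {u v : Set E3} (h : ∀ a ∈ s.dom, (a ∈ u ↔ a ∈ v)) : s.base u = s.base v := by
  rw [base, Measure.restrict_apply' s.measurableSet_dom,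
    Measure.restrict_apply' s.measurableSet_dom]
  congr 1
  ext a
  exact ⟨fun ⟨x, y⟩ => ⟨(h a y).1 x, y⟩, fun ⟨x, y⟩ => ⟨(h a y).2 x, y⟩⟩

lemma base_empty {u : Set E3} (h : ∀ a ∈ s.dom, a ∉ u) : s.base u = 0 := by
  rw [s.base_congr (v := ∅) (fun a ha => by simp [h a ha]), measure_empty]

/-- The five sites of a point of the two sheets are pairwise far apart. -/
lemma sheet_sites {a : E3} (ha : a ∈ s.dom) :
    (dist a 0 < 1/100 ∧ dist (s.fwdB a) ptB < 1/100 ∧ dist (s.fwdC a) ptC < 1/100) ∧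
      (dist (s.fwdB' a) ptB' < 1/100 ∧ dist (s.fwdC' a) ptC' < 1/100) := by
  refine ⟨⟨s.dom_near ha, s.near_fwdB a (s.mem_dom.mp ha), s.near_fwdC a (s.mem_dom.mp ha)⟩,
    ?_, ?_⟩
  · rw [← swapYZ_ptB, ← dist_swapYZ]; exact (s.mem_setB' ha).1
  · rw [← swapYZ_ptC, ← dist_swapYZ]; exact (s.mem_setC' ha).1

lemma site_dists :
    (1 ≤ dist ptB 0 ∧ 1 ≤ dist ptC 0 ∧ 1 ≤ dist ptB' 0 ∧ 1 ≤ dist ptC' 0) ∧
    (1 ≤ dist ptC ptB ∧ 1 ≤ dist ptC' ptB') ∧
    (1 ≤ dist ptB ptB' ∧ 1 ≤ dist ptB ptC' ∧ 1 ≤ dist ptC ptB' ∧ 1 ≤ dist ptC ptC') := by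
  have h1 := (cross_dist (p := ptB) (q := ptB') (Or.inl rfl) (Or.inl rfl)).1
  have h2 := (cross_dist (p := ptB) (q := ptC') (Or.inl rfl) (Or.inr rfl)).1
  have h3 := (cross_dist (p := ptC) (q := ptB') (Or.inr rfl) (Or.inl rfl)).1
  have h4 := (cross_dist (p := ptC) (q := ptC') (Or.inr rfl) (Or.inr rfl)).1
  refine ⟨⟨?_, ?_, ?_, ?_⟩, ⟨?_, ?_⟩, ?_, ?_, ?_, ?_⟩ <;>
    first
      | linarith
      | (rw [dist_ptB_ptC]; norm_num)
      | (rw [dist_ptB'_ptC']; norm_num)
      | (simp [dist_zero_right, norm_ptB, norm_ptC, norm_ptB', norm_ptC'])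

lemma sep' {x p q : E3} (h : 1 ≤ dist p q) (hp : dist x q < 1/100) : ¬ dist x p < 1/100 :=
  sep (by rwa [dist_comm]) hp

/-- The set of points of the second site whose anchor lies in `t`. -/
def liftB (t : Set E3) : Set E3 := {x | dist x ptB < 1/100 ∧ s.invB x ∈ t}

/-- The same for the second site of the second sheet. -/
def liftB' (t : Set E3) : Set E3 :=
  {x | dist x ptB' < 1/100 ∧ swapYZ (s.invB (swapYZ x)) ∈ t}

/-- The same for the third site of the second sheet. -/
def liftC' (t : Set E3) : Set E3 :=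
  {x | dist x ptC' < 1/100 ∧ swapYZ (s.invC (swapYZ x)) ∈ t}

/-- Points of the first site sent by a map to the second sheet. -/
def onSecond (T : E3 → E3) : Set E3 :=
  {x | x ∈ s.dom ∧ (dist (T x) ptB' < 1/100 ∨ dist (T x) ptC' < 1/100)}

lemma measurableSet_liftB {t : Set E3} (ht : MeasurableSet t) : MeasurableSet (s.liftB t) :=
  (measurableSet_ball (x := ptB) (ε := 1/100)).inter (s.measurable_invB ht)

lemma measurableSet_liftB' {t : Set E3} (ht : MeasurableSet t) : MeasurableSet (s.liftB' t) :=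
  (measurableSet_ball (x := ptB') (ε := 1/100)).inter
    ((swapYZ.continuous.measurable.comp (s.measurable_invB.comp swapYZ.continuous.measurable)) ht)

lemma measurableSet_liftC' {t : Set E3} (ht : MeasurableSet t) : MeasurableSet (s.liftC' t) :=
  (measurableSet_ball (x := ptC') (ε := 1/100)).inter
    ((swapYZ.continuous.measurable.comp (s.measurable_invC.comp swapYZ.continuous.measurable)) ht)

lemma measurableSet_onSecond {T : E3 → E3} (hT : Measurable T) :
    MeasurableSet (s.onSecond T) :=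
  s.measurableSet_dom.inter
    ((hT (measurableSet_ball (x := ptB') (ε := 1/100))).union
      (hT (measurableSet_ball (x := ptC') (ε := 1/100))))

lemma invB'_fwd {a : E3} (ha : a ∈ s.dom) : swapYZ (s.invB (swapYZ (s.fwdB' a))) = a := by
  rw [fwdB', swapYZ_swapYZ, s.invB_fwd _ (s.mem_dom.mp (s.swap_mem_dom ha)), swapYZ_swapYZ]

lemma invC'_fwd {a : E3} (ha : a ∈ s.dom) : swapYZ (s.invC (swapYZ (s.fwdC' a))) = a := by
  rw [fwdC', swapYZ_swapYZ, s.invC_fwd _ (s.mem_dom.mp (s.swap_mem_dom ha)), swapYZ_swapYZ]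

/-- Pointwise bookkeeping for one contact triple. -/
lemma count_identity {T2 T3 : E3 → E3} {t : Set E3} (ht : t ⊆ s.dom) {x : E3}
    (hne : x ≠ T2 x ∧ x ≠ T3 x ∧ T2 x ≠ T3 x) (h : s.Contact x (T2 x) (T3 x)) :
    ind t x + ind t (T2 x) + ind t (T3 x) =
      (ind (s.liftB t) x + ind (s.liftB t) (T2 x) + ind (s.liftB t) (T3 x)) +
        (ind (t ∩ s.onSecond T2) x + ind (s.liftB' t) x + ind (s.liftC' t) x) := by
  obtain ⟨⟨z0, z1, z2, z3⟩, ⟨z4, z5⟩, z6, z7, z8, z9⟩ := site_dists
  obtain ⟨a, ha, hm⟩ := h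
  have tsum : ∀ (f : E3 → ℝ≥0∞) (u v w : E3),
      (Multiset.map f {u, v, w}).sum = f u + f v + f w := fun f u v w => by
    simp [add_assoc]
  obtain ⟨⟨n0, nB, nC⟩, nB', nC'⟩ := s.sheet_sites ha
  have notT : ∀ {y p : E3}, dist y p < 1/100 → 1 ≤ dist p 0 → y ∉ t := fun hy hp hyt =>
    sep hp hy (s.dom_near (ht hyt))
  have notP : ∀ {y p : E3}, dist y p < 1/100 → 1 ≤ dist p ptB → y ∉ s.liftB t := fun hy hp hyt =>
    sep hp hy hyt.1
  have memx : x ∈ ({x, T2 x, T3 x} : Multiset E3) := by simp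
  have mem2 : T2 x ∈ ({x, T2 x, T3 x} : Multiset E3) := by simp
  rw [← tsum (ind t), ← tsum (ind (s.liftB t))]
  rcases hm with hm | hm
  · rw [hm, tsum, tsum, ind_of_not (notT nB z0), ind_of_not (notT nC z1),
      ind_of_not (t := s.liftB t) (x := a) (fun h => sep' z0 n0 h.1), ind_of_not (notP nC z4)]
    have e1 : ind (s.liftB t) (s.fwdB a) = ind t a := by
      by_cases hat : a ∈ t
      · rw [ind_of_mem hat, ind_of_mem (t := s.liftB t) ⟨nB, by rwa [s.invB_fwd a (s.mem_dom.mp ha)]⟩]
      · rw [ind_of_not hat, ind_of_not]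
        exact fun h => hat (by simpa [s.invB_fwd a (s.mem_dom.mp ha)] using h.2)
    rw [e1]
    rw [hm] at memx mem2
    simp only [Multiset.insert_eq_cons, Multiset.mem_cons, Multiset.mem_singleton] at memx mem2
    have q1 : x ∉ t ∩ s.onSecond T2 := by
      rintro ⟨hxt, -, hx2⟩
      rcases memx with rfl | rfl | rfl
      · rcases mem2 with e | e | e
        · exact hne.1 e.symm
        · rw [e] at hx2; exact hx2.elim (sep z6 nB) (sep z7 nB)
        · rw [e] at hx2; exact hx2.elim (sep z8 nC) (sep z9 nC)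
      · exact notT nB z0 hxt
      · exact notT nC z1 hxt
    have q2 : x ∉ s.liftB' t := by
      rintro ⟨hx, -⟩
      rcases memx with rfl | rfl | rfl
      · exact sep' z2 n0 hx
      · exact sep z6 nB hx
      · exact sep z8 nC hx
    have q3 : x ∉ s.liftC' t := by
      rintro ⟨hx, -⟩
      rcases memx with rfl | rfl | rfl
      · exact sep' z3 n0 hx
      · exact sep z7 nB hx
      · exact sep z9 nC hx
    rw [ind_of_not q1, ind_of_not q2, ind_of_not q3]
    simp
  · change ({x, T2 x, T3 x} : Multiset E3) = {a, s.fwdB' a, s.fwdC' a} at hm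
    rw [hm, tsum, tsum, ind_of_not (notT nB' z2), ind_of_not (notT nC' z3),
      ind_of_not (t := s.liftB t) (x := a) (fun h => sep' z0 n0 h.1),
      ind_of_not (t := s.liftB t) (x := s.fwdB' a) (fun h => sep' z6 nB' h.1),
      ind_of_not (t := s.liftB t) (x := s.fwdC' a) (fun h => sep' z7 nC' h.1)]
    rw [hm] at memx mem2
    simp only [Multiset.insert_eq_cons, Multiset.mem_cons, Multiset.mem_singleton] at memx mem2
    simp only [add_zero, zero_add]
    rcases memx with rfl | e | e
    · have hA : x ∈ s.onSecond T2 := by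
        refine ⟨ha, ?_⟩
        rcases mem2 with e | e | e
        · exact absurd e.symm hne.1
        · rw [e]; exact Or.inl nB'
        · rw [e]; exact Or.inr nC'
      rw [ind_of_not (t := s.liftB' t) (fun h => sep' z2 n0 h.1),
        ind_of_not (t := s.liftC' t) (fun h => sep' z3 n0 h.1)]
      by_cases hat : x ∈ t
      · rw [ind_of_mem hat, ind_of_mem (t := t ∩ s.onSecond T2) ⟨hat, hA⟩, add_zero, add_zero]
      · rw [ind_of_not hat, ind_of_not (fun h => hat h.1), add_zero, add_zero]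
    · subst e
      rw [ind_of_not (t := t ∩ _) (fun h => notT nB' z2 h.1),
        ind_of_not (t := s.liftC' t) (fun h => sep' z5 nB' h.1), zero_add, add_zero]
      by_cases hat : a ∈ t
      · rw [ind_of_mem hat, ind_of_mem (t := s.liftB' t) ⟨nB', by rwa [s.invB'_fwd ha]⟩]
      · rw [ind_of_not hat, ind_of_not]
        exact fun h => hat (by simpa [s.invB'_fwd ha] using h.2)
    · subst e
      rw [ind_of_not (t := t ∩ _) (fun h => notT nC' z3 h.1),
        ind_of_not (t := s.liftB' t) (fun h => sep z5 nC' h.1), zero_add, zero_add]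
      by_cases hat : a ∈ t
      · rw [ind_of_mem hat, ind_of_mem (t := s.liftC' t) ⟨nC', by rwa [s.invC'_fwd ha]⟩]
      · rw [ind_of_not hat, ind_of_not]
        exact fun h => hat (by simpa [s.invC'_fwd ha] using h.2)

lemma marg_dom_part {t : Set E3} (htm : MeasurableSet t) (ht : t ⊆ s.dom) :
    s.marg t = s.kappa * (2 * s.base t) := by
  obtain ⟨⟨z0, z1, z2, z3⟩, -⟩ := site_dists
  rw [s.marg_apply htm, s.base_empty (u := s.fwdB ⁻¹' t), s.base_empty (u := s.fwdC ⁻¹' t),
    s.base_empty (u := s.fwdB' ⁻¹' t), s.base_empty (u := s.fwdC' ⁻¹' t)]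
  · ring
  all_goals intro a ha h
  · exact sep z3 (s.sheet_sites ha).2.2 (s.dom_near (ht h))
  · exact sep z2 (s.sheet_sites ha).2.1 (s.dom_near (ht h))
  · exact sep z1 (s.sheet_sites ha).1.2.2 (s.dom_near (ht h))
  · exact sep z0 (s.sheet_sites ha).1.2.1 (s.dom_near (ht h))

lemma marg_liftB {t : Set E3} (htm : MeasurableSet t) :
    s.marg (s.liftB t) = s.kappa * s.base t := by
  obtain ⟨⟨z0, -⟩, ⟨z4, -⟩, z6, z7, -⟩ := site_dists
  rw [s.marg_apply (s.measurableSet_liftB htm), s.base_empty (u := s.liftB t),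
    s.base_congr (u := s.fwdB ⁻¹' s.liftB t) (v := t),
    s.base_empty (u := s.fwdC ⁻¹' s.liftB t), s.base_empty (u := s.fwdB' ⁻¹' s.liftB t),
    s.base_empty (u := s.fwdC' ⁻¹' s.liftB t)]
  · simp
  all_goals intro a ha
  · exact fun h => sep' z7 (s.sheet_sites ha).2.2 h.1
  · exact fun h => sep' z6 (s.sheet_sites ha).2.1 h.1
  · exact fun h => sep z4 (s.sheet_sites ha).1.2.2 h.1
  · exact ⟨fun h => by simpa [s.invB_fwd a (s.mem_dom.mp ha)] using h.2, fun h =>
      ⟨(s.sheet_sites ha).1.2.1, by rwa [s.invB_fwd a (s.mem_dom.mp ha)]⟩⟩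
  · exact fun h => sep' z0 (s.sheet_sites ha).1.1 h.1

lemma marg_liftB' {t : Set E3} (htm : MeasurableSet t) :
    s.marg (s.liftB' t) = s.kappa * s.base t := by
  obtain ⟨⟨-, -, z2, -⟩, ⟨-, z5⟩, z6, -, z8, -⟩ := site_dists
  rw [s.marg_apply (s.measurableSet_liftB' htm), s.base_empty (u := s.liftB' t),
    s.base_empty (u := s.fwdB ⁻¹' s.liftB' t), s.base_empty (u := s.fwdC ⁻¹' s.liftB' t),
    s.base_congr (u := s.fwdB' ⁻¹' s.liftB' t) (v := t),
    s.base_empty (u := s.fwdC' ⁻¹' s.liftB' t)]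
  · simp
  all_goals intro a ha
  · exact fun h => sep z5 (s.sheet_sites ha).2.2 h.1
  · exact ⟨fun h => by simpa [s.invB'_fwd ha] using h.2, fun h =>
      ⟨(s.sheet_sites ha).2.1, by rwa [s.invB'_fwd ha]⟩⟩
  · exact fun h => sep z8 (s.sheet_sites ha).1.2.2 h.1
  · exact fun h => sep z6 (s.sheet_sites ha).1.2.1 h.1
  · exact fun h => sep' z2 (s.sheet_sites ha).1.1 h.1

lemma marg_liftC' {t : Set E3} (htm : MeasurableSet t) :
    s.marg (s.liftC' t) = s.kappa * s.base t := by
  obtain ⟨⟨-, -, -, z3⟩, ⟨-, z5⟩, -, z7, -, z9⟩ := site_dists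
  rw [s.marg_apply (s.measurableSet_liftC' htm), s.base_empty (u := s.liftC' t),
    s.base_empty (u := s.fwdB ⁻¹' s.liftC' t), s.base_empty (u := s.fwdC ⁻¹' s.liftC' t),
    s.base_empty (u := s.fwdB' ⁻¹' s.liftC' t),
    s.base_congr (u := s.fwdC' ⁻¹' s.liftC' t) (v := t)]
  · simp
  all_goals intro a ha
  · exact ⟨fun h => by simpa [s.invC'_fwd ha] using h.2, fun h =>
      ⟨(s.sheet_sites ha).2.2, by rwa [s.invC'_fwd ha]⟩⟩
  · exact fun h => sep' z5 (s.sheet_sites ha).2.1 h.1
  · exact fun h => sep z9 (s.sheet_sites ha).1.2.2 h.1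
  · exact fun h => sep z7 (s.sheet_sites ha).1.2.1 h.1
  · exact fun h => sep' z3 (s.sheet_sites ha).1.1 h.1

lemma count_measure {T2 T3 : E3 → E3} (m2 : Measurable T2) (m3 : Measurable T3)
    (p2 : s.marg.map T2 = s.marg) (p3 : s.marg.map T3 = s.marg)
    (hc : ∀ᵐ x ∂s.marg, (x ≠ T2 x ∧ x ≠ T3 x ∧ T2 x ≠ T3 x) ∧ s.Contact x (T2 x) (T3 x))
    {t : Set E3} (htm : MeasurableSet t) (ht : t ⊆ s.dom) :
    s.base t = 2 * s.base (t ∩ s.onSecond T2) := by
  have hA := htm.inter (s.measurableSet_onSecond m2)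
  have hP := s.measurableSet_liftB htm
  have hB := s.measurableSet_liftB' htm
  have hC := s.measurableSet_liftC' htm
  have mi : ∀ {u : Set E3}, MeasurableSet u → Measurable (ind u) := fun hu =>
    measurable_const.indicator hu
  have three : ∀ {u : Set E3}, MeasurableSet u →
      ∫⁻ x, ind u x + ind u (T2 x) + ind u (T3 x) ∂s.marg = 3 * s.marg u := by
    intro u hu
    rw [lintegral_add_left (f := fun x => ind u x + ind u (T2 x))
        ((mi hu).fun_add ((mi hu).comp m2)), lintegral_add_left (mi hu), ← lintegral_map (mi hu) m2, ← lintegral_map (mi hu) m3, p2, p3,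
      lintegral_ind hu]
    ring
  have main := lintegral_congr_ae (μ := s.marg)
    (hc.mono fun x hx => s.count_identity ht hx.1 hx.2)
  rw [three htm, lintegral_add_left (by
      exact (((mi hP).fun_add ((mi hP).comp m2)).fun_add ((mi hP).comp m3))),
    three hP, lintegral_add_left ((mi hA).fun_add (mi hB)), lintegral_add_left (mi hA),
    lintegral_ind hA, lintegral_ind hB, lintegral_ind hC, s.marg_dom_part htm ht,
    s.marg_liftB htm, s.marg_dom_part hA (inter_subset_left.trans ht), s.marg_liftB' htm,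
    s.marg_liftC' htm] at main
  set e := s.base t
  set f := s.base (t ∩ s.onSecond T2)
  have e_fin : e ≠ ⊤ := by
    refine (lt_of_le_of_lt (measure_mono (subset_univ t)) ?_).ne
    rw [base, Measure.restrict_apply_univ]; exact s.volume_dom_lt_top
  have main' : s.kappa * (5 * e + e) = s.kappa * (5 * e + 2 * f) := by
    calc s.kappa * (5 * e + e) = 3 * (s.kappa * (2 * e)) := by ring
      _ = _ := main
      _ = s.kappa * (5 * e + 2 * f) := by ring
  rw [ENNReal.mul_right_inj s.kappa_ne_zero s.kappa_ne_top] at main'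
  exact (ENNReal.add_right_inj (ENNReal.mul_ne_top (by norm_num) e_fin)).mp main'

theorem no_monge (T2 T3 : E3 → E3) (m2 : Measurable T2) (m3 : Measurable T3)
    (p2 : s.marg.map T2 = s.marg) (p3 : s.marg.map T3 = s.marg) :
    ∫⁻ x, coulombCost (x, T2 x, T3 x) ∂s.marg ≠ kantorovichValue s.marg := by
  intro heq
  have me := s.measurable_epot
  have mc : Measurable fun x => coulombCost (x, T2 x, T3 x) :=
    measurable_coulombCost.comp (measurable_id.prodMk (m2.prodMk m3))
  have hpre : ∀ T : E3 → E3, Measurable T → s.marg.map T = s.marg →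
      ∀ᵐ x ∂s.marg, T x ∈ s.carrier := fun T mT pT =>
    ae_of_ae_map (p := (· ∈ s.carrier)) mT.aemeasurable (pT.symm ▸ s.ae_carrier)
  have hle : (fun x => s.epot x + s.epot (T2 x) + s.epot (T3 x)) ≤ᵐ[s.marg]
      fun x => coulombCost (x, T2 x, T3 x) + 9 := by
    filter_upwards [s.ae_carrier, hpre T2 m2 p2, hpre T3 m3 p3] with x a b c
      using s.dual_le a b c
  have hsum : ∫⁻ x, s.epot x + s.epot (T2 x) + s.epot (T3 x) ∂s.marg = s.dualValue := by
    rw [lintegral_add_left (f := fun x => s.epot x + s.epot (T2 x))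
        (me.fun_add (me.comp m2)), lintegral_add_left me,
      ← lintegral_map me m2, ← lintegral_map me m3, p2, p3, dualValue]
    ring
  have hcost : ∫⁻ x, coulombCost (x, T2 x, T3 x) + 9 ∂s.marg = s.dualValue := by
    rw [lintegral_add_left mc, lintegral_const, s.isProbabilityMeasure_marg.measure_univ,
      mul_one, heq, s.value_add_nine]
  have hae := ae_eq_of_ae_le_of_lintegral_le hle (hsum ▸ s.dualValue_lt_top.ne)
    (mc.add_const 9).aemeasurable (by rw [hsum, hcost])
  have hc : ∀ᵐ x ∂s.marg,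
      (x ≠ T2 x ∧ x ≠ T3 x ∧ T2 x ≠ T3 x) ∧ s.Contact x (T2 x) (T3 x) := by
    filter_upwards [hae, s.ae_carrier, hpre T2 m2 p2, hpre T3 m3 p3] with x e a b c
      using s.contact_of_eq a b c e
  have hAm := s.measurableSet_onSecond m2
  have hA : s.onSecond T2 ⊆ s.dom := fun x hx => hx.1
  have k1 := s.count_measure m2 m3 p2 p3 hc s.measurableSet_dom subset_rfl
  have k2 := s.count_measure m2 m3 p2 p3 hc hAm hA
  rw [inter_eq_right.mpr hA] at k1
  rw [inter_self] at k2
  have hfin : s.base (s.onSecond T2) ≠ ⊤ := by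
    refine (lt_of_le_of_lt (measure_mono (subset_univ _)) ?_).ne
    rw [base, Measure.restrict_apply_univ]; exact s.volume_dom_lt_top
  have h0 : s.base (s.onSecond T2) = 0 := by
    by_contra hne
    exact (ENNReal.lt_add_right hfin hne).ne (k2.trans (two_mul _))
  rw [h0, mul_zero, base, Measure.restrict_apply_self] at k1
  exact s.volume_dom_pos.ne' k1

end Sheet

end Vale.Agent.P121
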