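import Vale.Agent.P121.Local

/-!
Existence of one sheet of the contact set, by the inverse function theorem.
-/

noncomputable section

open MeasureTheory Filter Topology Metric Set
open scoped RealInnerProductSpace NNReal

namespace Vale.Agent.P121

lemma pair_bound (π : (E3 × E3 × E3) →L[ℝ] E3)
    (hπ : ∀ p, dcrit p = 0 → π p = 0 → p = 0) :
    ∃ C : ℝ≥0, ∀ᶠ r in 𝓝 (ctr, ctr), crit r.1 = crit r.2 →
      dist r.1 r.2 ≤ C * dist (π r.1) (π r.2) := by
  have hG := π.hasStrictFDerivAt.prodMk (x := ctr) hasStrictFDerivAt_crit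
  have hker : LinearMap.ker (π.prod dcrit).toLinearMap = ⊥ := by
    rw [LinearMap.ker_eq_bot']
    intro p hp
    exact hπ p (congrArg Prod.snd hp) (congrArg Prod.fst hp)
  obtain ⟨K, hK, hanti⟩ := LinearMap.exists_antilipschitzWith _ hker
  have hK' : (0:ℝ) < K := by exact_mod_cast hK
  refine ⟨2 * K, ?_⟩
  filter_upwards [hG.isLittleO.def (c := (2 * (K:ℝ))⁻¹) (by positivity)] with r hr he
  have h1 := hanti.le_mul_dist r.1 r.2
  simp only [dist_eq_norm] at h1 ⊢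
  rw [← map_sub] at h1
  have h2 : ‖(π.prod dcrit) (r.1 - r.2)‖ ≤ ‖π r.1 - π r.2‖ + (2 * (K:ℝ))⁻¹ * ‖r.1 - r.2‖ := by
    have := norm_le_norm_add_norm_sub' ((π.prod dcrit) (r.1 - r.2))
      ((π r.1, crit r.1) - (π r.2, crit r.2))
    have e : ‖(π r.1, crit r.1) - (π r.2, crit r.2)‖ = ‖π r.1 - π r.2‖ := by
      rw [Prod.mk_sub_mk, he, sub_self, Prod.norm_mk, norm_zero]
      exact max_eq_left (norm_nonneg _)
    rw [norm_sub_rev] at hr
    linarith
  have h3 : (K:ℝ) * ((2 * (K:ℝ))⁻¹ * ‖r.1 - r.2‖) = ‖r.1 - r.2‖ / 2 := by field_simp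
  have h4 : ‖r.1 - r.2‖ ≤ K * (‖π r.1 - π r.2‖ + (2 * (K:ℝ))⁻¹ * ‖r.1 - r.2‖) :=
    h1.trans (mul_le_mul_of_nonneg_left h2 hK'.le)
  push_cast
  linarith

/-- One sheet of the contact set, parametrised by its point near the first site. -/
structure Sheet where
  rad : ℝ
  rad_pos : 0 < rad
  rad_le : rad ≤ 1/100
  fwdB : E3 → E3
  fwdC : E3 → E3
  invB : E3 → E3
  invC : E3 → E3
  meas_fwdB : Measurable fwdB
  meas_fwdC : Measurable fwdC
  lipConst : ℝ≥0
  lip_invB : LipschitzWith lipConst invB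
  lip_invC : LipschitzWith lipConst invC
  near_fwdB : ∀ a, dist a 0 < rad → dist (fwdB a) ptB < 1/100
  near_fwdC : ∀ a, dist a 0 < rad → dist (fwdC a) ptC < 1/100
  crit_fwd : ∀ a, dist a 0 < rad → crit (a, fwdB a, fwdC a) = 0
  invB_fwd : ∀ a, dist a 0 < rad → invB (fwdB a) = a
  invC_fwd : ∀ a, dist a 0 < rad → invC (fwdC a) = a

lemma exists_left_inverse {U : Set E3} {f : E3 → E3} {C : ℝ≥0}
    (h : ∀ a ∈ U, ∀ a' ∈ U, dist a a' ≤ C * dist (f a) (f a')) :
    ∃ g : E3 → E3, ∃ K, LipschitzWith K g ∧ ∀ a ∈ U, g (f a) = a := by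
  have hinj : InjOn f U := by
    intro a ha a' ha' e
    have := h a ha a' ha'
    rw [e, dist_self, mul_zero] at this
    exact dist_le_zero.mp this
  have hl : LipschitzOnWith C (Function.invFunOn f U) (f '' U) := by
    refine LipschitzOnWith.of_dist_le_mul ?_
    rintro _ ⟨a, ha, rfl⟩ _ ⟨a', ha', rfl⟩
    rw [hinj.leftInvOn_invFunOn ha, hinj.leftInvOn_invFunOn ha']
    exact h a ha a' ha'
  obtain ⟨g, hg, he⟩ := hl.extend_finite_dimension
  refine ⟨g, _, hg, fun a ha => ?_⟩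
  rw [← he (mem_image_of_mem f ha), hinj.leftInvOn_invFunOn ha]

theorem exists_sheet : Nonempty Sheet := by
  let pa : (E3 × E3 × E3) →L[ℝ] E3 := ContinuousLinearMap.fst ℝ E3 (E3 × E3)
  let pb : (E3 × E3 × E3) →L[ℝ] E3 :=
    (ContinuousLinearMap.fst ℝ E3 E3).comp (ContinuousLinearMap.snd ℝ E3 (E3 × E3))
  let pd : (E3 × E3 × E3) →L[ℝ] E3 :=
    (ContinuousLinearMap.snd ℝ E3 E3).comp (ContinuousLinearMap.snd ℝ E3 (E3 × E3))
  have ka : ∀ p, dcrit p = 0 → pa p = 0 → p = 0 := by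
    rintro ⟨x, y, z⟩ h (hx : x = 0)
    obtain ⟨rfl, rfl, rfl⟩ := dcrit_ker x y z h (Or.inl hx); rfl
  have kb : ∀ p, dcrit p = 0 → pb p = 0 → p = 0 := by
    rintro ⟨x, y, z⟩ h (hy : y = 0)
    obtain ⟨rfl, rfl, rfl⟩ := dcrit_ker x y z h (Or.inr (Or.inl hy)); rfl
  have kd : ∀ p, dcrit p = 0 → pd p = 0 → p = 0 := by
    rintro ⟨x, y, z⟩ h (hz : z = 0)
    obtain ⟨rfl, rfl, rfl⟩ := dcrit_ker x y z h (Or.inr (Or.inr hz)); rfl
  have hG := pa.hasStrictFDerivAt.prodMk (x := ctr) hasStrictFDerivAt_crit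
  have hinj : Function.Injective (pa.prod dcrit).toLinearMap := by
    rw [← LinearMap.ker_eq_bot, LinearMap.ker_eq_bot']
    intro p hp
    exact ka p (congrArg Prod.snd hp) (congrArg Prod.fst hp)
  let L := (LinearEquiv.ofInjectiveEndo _ hinj).toContinuousLinearEquiv
  have hG' : HasStrictFDerivAt (fun p => (pa p, crit p))
      (L : (E3 × E3 × E3) →L[ℝ] (E3 × E3 × E3)) ctr :=
    hG.congr_fderiv (ContinuousLinearMap.ext fun _ => rfl)
  obtain ⟨C2, h2⟩ := pair_bound pb kb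
  obtain ⟨C3, h3⟩ := pair_bound pd kd
  let e := hG'.toOpenPartialHomeomorph _
  have esrc : ctr ∈ e.source := hG'.mem_toOpenPartialHomeomorph_source
  have ecoe : ∀ p, e p = (pa p, crit p) := fun p => by
    simp only [e, HasStrictFDerivAt.toOpenPartialHomeomorph_coe]
  have ec : e ctr = ((0:E3), (0 : E3 × E3)) := by
    rw [ecoe]; exact Prod.ext rfl crit_center
  let j : E3 → E3 × E3 × E3 := fun a => e.symm (a, 0)
  have jt : ((0:E3), (0 : E3 × E3)) ∈ e.target := ec ▸ e.map_source esrc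
  have jc : ContinuousAt j 0 :=
    (e.continuousAt_symm jt).comp (f := fun a : E3 => (a, (0 : E3 × E3))) (x := 0)
      (Continuous.prodMk_left (0 : E3 × E3)).continuousAt
  have j0 : j 0 = ctr := by
    show e.symm ((0:E3), (0 : E3 × E3)) = ctr
    rw [← ec, e.left_inv esrc]
  have jl : Tendsto j (𝓝 0) (𝓝 ctr) := j0 ▸ jc
  have jp : Tendsto (fun r : E3 × E3 => (j r.1, j r.2)) (𝓝 (0, 0)) (𝓝 (ctr, ctr)) := by
    rw [nhds_prod_eq, nhds_prod_eq]; exact jl.prodMap jl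
  have evT : ∀ᶠ a in 𝓝 (0:E3), (a, (0 : E3 × E3)) ∈ e.target :=
    (Continuous.prodMk_left (0 : E3 × E3)).continuousAt.preimage_mem_nhds
      (e.open_target.mem_nhds jt)
  have evB : ∀ᶠ a in 𝓝 (0:E3), dist (j a) ctr < 1/100 :=
    jl (ball_mem_nhds ctr (by norm_num))
  obtain ⟨r1, r1p, hr1⟩ := Metric.eventually_nhds_iff.mp (evT.and evB)
  obtain ⟨r2, r2p, hr2⟩ := Metric.eventually_nhds_iff.mp ((jp.eventually h2).and (jp.eventually h3))
  set ρ := min (min r1 r2) (1/100) with hρ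
  have ρp : 0 < ρ := lt_min (lt_min r1p r2p) (by norm_num)
  have U1 : ∀ a : E3, dist a 0 < ρ → (a, (0 : E3 × E3)) ∈ e.target ∧ dist (j a) ctr < 1/100 :=
    fun a ha => hr1 (lt_of_lt_of_le ha ((min_le_left _ _).trans (min_le_left _ _)))
  have eqn : ∀ a : E3, dist a 0 < ρ → (j a).1 = a ∧ crit (j a) = 0 := by
    intro a ha
    have := e.right_inv (U1 a ha).1
    rw [ecoe] at this
    exact ⟨congrArg Prod.fst this, congrArg Prod.snd this⟩
  have U2 : ∀ a ∈ ball (0:E3) ρ, ∀ a' ∈ ball (0:E3) ρ,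
      dist a a' ≤ C2 * dist (j a).2.1 (j a').2.1 ∧ dist a a' ≤ C3 * dist (j a).2.2 (j a').2.2 := by
    intro a ha a' ha'
    rw [mem_ball] at ha ha'
    have hr : dist (a, a') ((0:E3), (0:E3)) < r2 := by
      rw [Prod.dist_eq]
      exact max_lt (lt_of_lt_of_le ha ((min_le_left _ _).trans (min_le_right _ _)))
        (lt_of_lt_of_le ha' ((min_le_left _ _).trans (min_le_right _ _)))
    obtain ⟨q2, q3⟩ := hr2 hr
    obtain ⟨e1, c1⟩ := eqn a ha
    obtain ⟨e1', c1'⟩ := eqn a' ha'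
    have hd : dist a a' ≤ dist (j a) (j a') := by
      rw [Prod.dist_eq (x := j a), e1, e1']; exact le_max_left _ _
    have hc : crit (j a) = crit (j a') := c1.trans c1'.symm
    exact ⟨hd.trans (q2 hc), hd.trans (q3 hc)⟩
  obtain ⟨gb, Kb, lb, hb⟩ := exists_left_inverse (f := fun a => (j a).2.1)
    (fun a ha a' ha' => (U2 a ha a' ha').1)
  obtain ⟨gd, Kd, ld, hd⟩ := exists_left_inverse (f := fun a => (j a).2.2)
    (fun a ha a' ha' => (U2 a ha a' ha').2)
  classical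
  have jon : ContinuousOn j (ball 0 ρ) :=
    e.continuousOn_symm.comp (Continuous.prodMk_left (0 : E3 × E3)).continuousOn
      (fun a ha => (U1 a ha).1)
  have mk : Measurable ((ball (0:E3) ρ).piecewise j (fun _ => ctr)) :=
    jon.measurable_piecewise continuous_const.continuousOn measurableSet_ball
  let j' := (ball (0:E3) ρ).piecewise j (fun _ => ctr)
  have hj' : ∀ a : E3, dist a 0 < ρ → j' a = j a := fun a ha =>
    piecewise_eq_of_mem _ _ _ (mem_ball.mpr ha)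
  refine ⟨⟨ρ, ρp, min_le_right _ _, fun a => (j' a).2.1, fun a => (j' a).2.2, gb, gd,
    measurable_fst.comp (measurable_snd.comp mk), measurable_snd.comp (measurable_snd.comp mk),
    max Kb Kd, lb.weaken (le_max_left _ _), ld.weaken (le_max_right _ _), ?_, ?_, ?_, ?_, ?_⟩⟩
  · intro a ha
    rw [hj' a ha]
    exact lt_of_le_of_lt ((le_max_left _ _).trans (le_max_right (dist (j a).1 0) _)) (U1 a ha).2
  · intro a ha
    rw [hj' a ha]
    exact lt_of_le_of_lt ((le_max_right _ _).trans (le_max_right (dist (j a).1 0) _)) (U1 a ha).2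
  · intro a ha
    rw [hj' a ha]
    obtain ⟨e1, c1⟩ := eqn a ha
    nth_rewrite 1 [← e1]
    exact c1
  · intro a ha
    rw [hj' a ha]; exact hb a (mem_ball.mpr ha)
  · intro a ha
    rw [hj' a ha]; exact hd a (mem_ball.mpr ha)

end Vale.Agent.P121
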